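import Vale.Agent.P363.Stmt

/-!
Problem P370, block R2b (lattice realisation of one-body potentials): definitions and exact
statements.

Light nuclei of charge one at the points `pt (1/t) k + s k`, `k` in the box `|k i| ≤ t ^ 4`, where
the displacement is `s k = -(t⁻³ / 4π) ∇u` up to `t ^ (-13)`.  Their potential energy
`v = - ∑ 1 / ‖x - y_k‖` has, for all charge densities `q` (products of orbitals),
`∫ v q = -κ ∫ q + (2π/3) t³ ∫ ‖x‖² q + ∫ u q + O((1+U)² N(q) / √t)`.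
-/

namespace Vale.Agent.P370.H198

open MeasureTheory
open Vale.Agent.P363.Stmt (R3)

noncomputable section

/-- Electrostatic potential of the charge density `q` at `y`. -/
def pot (q : R3 → ℝ) (y : R3) : ℝ := ∫ x, q x / ‖x - y‖

/-- The lattice point `h k`. -/
def pt (h : ℝ) (k : Fin 3 → ℤ) : R3 := WithLp.toLp 2 fun i => h * (k i : ℝ)

/-- The lattice box `|k i| ≤ K`. -/
def box (K : ℕ) : Finset (Fin 3 → ℤ) := Fintype.piFinset fun _ => Finset.Icc (-(K : ℤ)) K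

/-- The cube `|z i| ≤ A`. -/
def cube (A : ℝ) : Set R3 := {z | ∀ i, |z i| ≤ A}

/-- Potential of the cube with charge density one. -/
def VA (A : ℝ) (x : R3) : ℝ := ∫ z in cube A, 1 / ‖x - z‖

/-- Block CUBE: the potential of the cube is quadratic up to a term of fourth order. -/
def CubeStmt : Prop :=
  ∃ C : ℝ, 0 < C ∧ ∀ A : ℝ, 0 < A → ∀ x : R3,
    |VA A x - VA A 0 + 2 * Real.pi / 3 * ‖x‖ ^ 2| ≤ C * ‖x‖ ^ 4 / A ^ 2

/-- `L` is the Laplacian of the charge density `q`, in integrated form: the two Green identities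
with the kernels `‖x - z‖ / 2` (whose Laplacian is `1 / ‖x - z‖`) and `1 / ‖x - z‖` (whose Laplacian
is `- 4π δ_z`). -/
structure IsLap (q L : R3 → ℝ) : Prop where
  int_q : Integrable fun x => (1 + ‖x‖ ^ 4) * q x
  int_L : Integrable fun x => (1 + ‖x‖) * L x
  green1 : ∀ z : R3, ∫ x, q x / ‖x - z‖ = 1 / 2 * ∫ x, ‖x - z‖ * L x
  green2 : ∀ z : R3, -(4 * Real.pi) * q z = ∫ x, L x / ‖x - z‖

/-- The norms of the density which enter the error. -/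
structure Bnd (q L : R3 → ℝ) (N : ℝ) : Prop where
  sup : ∀ x, |q x| ≤ N
  mom : ∫ x, (1 + ‖x‖ ^ 4) * |q x| ≤ N
  lap : ∫ x, |L x| ≤ N

/-- Data of the potential `u` to be added by the displacements: `G` is its gradient. -/
structure DispData (u : R3 → ℝ) (G : R3 → R3) (U : ℝ) : Prop where
  nonneg : 0 ≤ U
  grad_le : ∀ x, ‖G x‖ ≤ U / (1 + ‖x‖) ^ 5
  lip : ∀ x y, ‖x - y‖ ≤ 2 → ‖G x - G y‖ ≤ U / (1 + ‖x‖) ^ 5 * ‖x - y‖
  repr : ∀ x, 4 * Real.pi * u x = ∫ y, inner ℝ (G y) (x - y) / ‖x - y‖ ^ 3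

/-- Block UNDISP (undisplaced lattice), `h = 1 / t`, `K = t ^ 4`. -/
def UndispStmt : Prop :=
  ∃ C : ℝ, 0 < C ∧ ∀ t : ℕ, 1 ≤ t → ∀ (q L : R3 → ℝ) (N : ℝ), IsLap q L → Bnd q L N →
    |(∑ k ∈ box (t ^ 4), pot q (pt (1 / t) k))
      - ((t : ℝ) ^ 3 * VA (((t : ℝ) ^ 4 + 1 / 2) / t) 0 + Real.pi * t / 6) * (∫ x, q x)
      + 2 * Real.pi / 3 * (t : ℝ) ^ 3 * (∫ x, ‖x‖ ^ 2 * q x)| ≤ C * N / Real.sqrt t

/-- Block DISP: the effect of the displacements. -/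
def DispStmt : Prop :=
  ∃ C : ℝ, 0 < C ∧ ∀ t : ℕ, 1 ≤ t → ∀ (u : R3 → ℝ) (G : R3 → R3) (U : ℝ), DispData u G U →
    ∀ s : (Fin 3 → ℤ) → R3,
    (∀ k ∈ box (t ^ 4), ‖s k + (1 / (4 * Real.pi * (t : ℝ) ^ 3)) • G (pt (1 / t) k)‖
      ≤ 1 / (t : ℝ) ^ 13) →
    ∀ (q : R3 → ℝ) (N : ℝ), Integrable q → (∀ x, |q x| ≤ N) → ∫ x, |q x| ≤ N →
    |(∑ k ∈ box (t ^ 4), (pot q (pt (1 / t) k + s k) - pot q (pt (1 / t) k)))
      + (∫ x, u x * q x)|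
      ≤ C * (1 + U) ^ 2 * N / Real.sqrt t

/-- The constant of the lattice. -/
def kap (t : ℕ) : ℝ := (t : ℝ) ^ 3 * VA (((t : ℝ) ^ 4 + 1 / 2) / t) 0 + Real.pi * t / 6

/-- Block R2b: the one-body potential of the displaced lattice. -/
def LatticeStmt : Prop :=
  ∃ C : ℝ, 0 < C ∧ ∀ t : ℕ, 1 ≤ t → ∀ (u : R3 → ℝ) (G : R3 → R3) (U : ℝ), DispData u G U →
    ∀ s : (Fin 3 → ℤ) → R3,
    (∀ k ∈ box (t ^ 4), ‖s k + (1 / (4 * Real.pi * (t : ℝ) ^ 3)) • G (pt (1 / t) k)‖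
      ≤ 1 / (t : ℝ) ^ 13) →
    ∀ (q L : R3 → ℝ) (N : ℝ), IsLap q L → Bnd q L N →
    |(∑ k ∈ box (t ^ 4), pot q (pt (1 / t) k + s k))
      - kap t * (∫ x, q x) + 2 * Real.pi / 3 * (t : ℝ) ^ 3 * (∫ x, ‖x‖ ^ 2 * q x)
      + (∫ x, u x * q x)| ≤ C * (1 + U) ^ 2 * N / Real.sqrt t

end

end Vale.Agent.P370.H198
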