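import Vale.Agent.P370.H198.LatDefs

/-!
Expansions of `‖v - z‖ + ‖v + z‖` and `1 / ‖v - z‖ + 1 / ‖v + z‖` for `‖z‖ ≤ ‖v‖ / 2`.
-/

namespace Vale.Agent.P370.H198

open Vale.Agent.P363.Stmt (R3)

theorem alg_b {R c b : ℝ} (hcR : 4 * c ≤ R ^ 2) (hb : b ^ 2 ≤ R ^ 2 * c) :
    |b| ≤ R ^ 2 / 2 := by
  apply abs_le_of_sq_le_sq _ (by positivity)
  nlinarith [sq_nonneg R]

theorem alg_half {R c b s : ℝ} (hR : 0 < R) (hc : 0 ≤ c)
    (hb : b ^ 2 ≤ R ^ 2 * c) (hs : 0 ≤ s) (h1 : s ^ 2 = R ^ 2 - 2 * b + c)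
    (hcR : 4 * c ≤ R ^ 2) : R / 2 ≤ s := by
  -- `4 b ≤ R² + 4 c`... finer: `2 b ≤ (3/4) R² + c`
  have h2 : 2 * b ≤ 3 / 4 * R ^ 2 + c := by
    have h3 : |2 * b| ≤ 3 / 4 * R ^ 2 + c := by
      apply abs_le_of_sq_le_sq _ (by positivity)
      nlinarith [sq_nonneg (R ^ 2 - 4 * c), mul_nonneg (sub_nonneg.2 hcR) hc,
        mul_nonneg (sub_nonneg.2 hcR) (sq_nonneg R)]
    exact (abs_le.1 h3).2
  apply le_of_sq_le_sq _ hs
  nlinarith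

/-- `P = s s'` is close to `Q`. -/
theorem alg_PQ {R c b P : ℝ} (hR : 0 < R) (hc : 0 ≤ c) (hcR : 4 * c ≤ R ^ 2)
    (hb : b ^ 2 ≤ R ^ 2 * c) (hP0 : 0 ≤ P) (hP2 : P ^ 2 = (R ^ 2 + c) ^ 2 - 4 * b ^ 2) :
    |P - (R ^ 2 + c - 2 * (b ^ 2 / R ^ 2))| ≤ 2 * c ^ 2 / R ^ 2 := by
  have hR2 : 0 < R ^ 2 := by positivity
  obtain ⟨m, hm⟩ : ∃ m, m = b ^ 2 / R ^ 2 := ⟨_, rfl⟩
  have hbm : b ^ 2 = m * R ^ 2 := by rw [hm]; field_simp
  have hm0 : 0 ≤ m := by rw [hm]; positivity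
  have hmc : m ≤ c := by
    rw [hm, div_le_iff₀ hR2]; linarith
  rw [← hm]
  have e1 : (P - (R ^ 2 + c - 2 * m)) * (P + (R ^ 2 + c - 2 * m)) = 4 * m * (c - m) := by
    have : (P - (R ^ 2 + c - 2 * m)) * (P + (R ^ 2 + c - 2 * m))
        = P ^ 2 - (R ^ 2 + c - 2 * m) ^ 2 := by ring
    rw [this, hP2, hbm]; ring
  have e3 : 4 * m * (c - m) ≤ c ^ 2 := by nlinarith [sq_nonneg (2 * m - c)]
  have e30 : 0 ≤ 4 * m * (c - m) := by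
    have : 0 ≤ c - m := by linarith
    positivity
  have hPQ : 3 / 4 * R ^ 2 ≤ P + (R ^ 2 + c - 2 * m) := by nlinarith
  have hPQ0 : 0 < P + (R ^ 2 + c - 2 * m) := by nlinarith
  have e4 : P - (R ^ 2 + c - 2 * m) = 4 * m * (c - m) / (P + (R ^ 2 + c - 2 * m)) := by
    rw [eq_div_iff hPQ0.ne', e1]
  rw [e4, abs_of_nonneg (by positivity), div_le_div_iff₀ hPQ0 hR2]
  calc 4 * m * (c - m) * R ^ 2 ≤ c ^ 2 * R ^ 2 := mul_le_mul_of_nonneg_right e3 hR2.le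
    _ ≤ 2 * c ^ 2 * (3 / 4 * R ^ 2) := by nlinarith [mul_nonneg (sq_nonneg c) hR2.le]
    _ ≤ _ := mul_le_mul_of_nonneg_left hPQ (by positivity)

/-- `|S² - T²| ≤ δ` implies `|S - T| ≤ δ / (3 R)` if `S ≥ R`, `T ≥ 2 R`. -/
theorem alg_ST {R S T δ : ℝ} (hR : 0 < R) (hS : R ≤ S) (hT : 2 * R ≤ T)
    (h : |S ^ 2 - T ^ 2| ≤ δ) : |S - T| ≤ δ / (3 * R) := by
  have e : |S - T| * (S + T) = |S ^ 2 - T ^ 2| := by
    have h1 : |S + T| = S + T := abs_of_nonneg (by linarith)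
    rw [← h1, ← abs_mul]
    congr 1
    ring
  rw [le_div_iff₀ (by positivity)]
  calc |S - T| * (3 * R) ≤ |S - T| * (S + T) :=
        mul_le_mul_of_nonneg_left (by linarith) (abs_nonneg _)
    _ = |S ^ 2 - T ^ 2| := e
    _ ≤ _ := h

/-- the algebraic core: `R = ‖v‖`, `c = ‖z‖²`, `b = v · z`, `s = ‖v - z‖`, `s' = ‖v + z‖`. -/
theorem alg_core {R c b s s' : ℝ} (hR : 0 < R) (hc : 0 ≤ c) (hcR : 4 * c ≤ R ^ 2)
    (hb : b ^ 2 ≤ R ^ 2 * c) (hs : 0 ≤ s) (hs' : 0 ≤ s') (h1 : s ^ 2 = R ^ 2 - 2 * b + c)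
    (h2 : s' ^ 2 = R ^ 2 + 2 * b + c) :
    |s + s' - (2 * R + c / R - b ^ 2 / R ^ 3)| ≤ 4 * c ^ 2 / R ^ 3 ∧
    R / 2 ≤ s ∧ R / 2 ≤ s' ∧ |s * s' - R ^ 2| ≤ 4 * c := by
  have hR2 : 0 < R ^ 2 := by positivity
  have hsR : R / 2 ≤ s := alg_half hR hc hb hs h1 hcR
  have hsR' : R / 2 ≤ s' := alg_half (b := -b) hR hc (by simpa using hb) hs'
    (by rw [h2]; ring) hcR
  have hP2 : (s * s') ^ 2 = (R ^ 2 + c) ^ 2 - 4 * b ^ 2 := by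
    rw [mul_pow, h1, h2]; ring
  have hPQ := alg_PQ hR hc hcR hb (mul_nonneg hs hs') hP2
  obtain ⟨m, hm⟩ : ∃ m, m = b ^ 2 / R ^ 2 := ⟨_, rfl⟩
  rw [← hm] at hPQ
  have hm0 : 0 ≤ m := by rw [hm]; positivity
  have hmc : m ≤ c := by
    rw [hm, div_le_iff₀ hR2]; linarith
  have hbound : 2 * c ^ 2 / R ^ 2 ≤ c / 2 := by
    rw [div_le_iff₀ hR2]; nlinarith
  obtain ⟨p1, p2⟩ := abs_le.1 hPQ
  refine ⟨?_, hsR, hsR', ?_⟩
  · have e3 : b ^ 2 / R ^ 3 = m / R := by rw [hm]; field_simp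
    rw [e3]
    obtain ⟨w, hw⟩ : ∃ w, w = (c - m) / R := ⟨_, rfl⟩
    have hw0 : 0 ≤ w := by
      rw [hw]; exact div_nonneg (by linarith) hR.le
    have hwR : w * R = c - m := by rw [hw]; field_simp
    have e4 : 2 * R + c / R - m / R = 2 * R + w := by rw [hw]; ring
    rw [e4]
    have hw2 : w ^ 2 ≤ c ^ 2 / R ^ 2 := by
      rw [le_div_iff₀ hR2, ← mul_pow, hwR]
      exact pow_le_pow_left₀ (by linarith) (by linarith) 2
    have hT2 : (2 * R + w) ^ 2 = 4 * R ^ 2 + 4 * (c - m) + w ^ 2 := by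
      rw [← hwR]; ring
    have hS2 : (s + s') ^ 2 = 2 * R ^ 2 + 2 * c + 2 * (s * s') := by
      have : (s + s') ^ 2 = s ^ 2 + s' ^ 2 + 2 * (s * s') := by ring
      rw [this, h1, h2]; ring
    have hST : |(s + s') ^ 2 - (2 * R + w) ^ 2| ≤ 5 * c ^ 2 / R ^ 2 := by
      rw [hS2, hT2]
      have h5 : 5 * c ^ 2 / R ^ 2 = 2 * (2 * c ^ 2 / R ^ 2) + c ^ 2 / R ^ 2 := by ring
      have hw20 := sq_nonneg w
      rw [h5, abs_le]
      constructor <;> linarith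
    have h6 := alg_ST hR (S := s + s') (T := 2 * R + w) (by linarith) (by linarith) hST
    refine h6.trans ?_
    calc (5 * c ^ 2 / R ^ 2) / (3 * R) = 5 / 3 * (c ^ 2 / R ^ 3) := by field_simp
      _ ≤ 4 * (c ^ 2 / R ^ 3) := by
          apply mul_le_mul_of_nonneg_right (by norm_num) (by positivity)
      _ = 4 * c ^ 2 / R ^ 3 := by ring
  · rw [abs_le]
    constructor <;> linarith

/-- expansion of the reciprocals -/
theorem alg_inv {R c b s s' : ℝ} (hR : 0 < R) (hc : 0 ≤ c) (hcR : 4 * c ≤ R ^ 2)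
    (hb : b ^ 2 ≤ R ^ 2 * c) (hs : 0 ≤ s) (hs' : 0 ≤ s') (h1 : s ^ 2 = R ^ 2 - 2 * b + c)
    (h2 : s' ^ 2 = R ^ 2 + 2 * b + c) :
    |1 / s + 1 / s' - 2 / R| ≤ 48 * c / R ^ 3 := by
  obtain ⟨k1, k2, k3, k4⟩ := alg_core hR hc hcR hb hs hs' h1 h2
  have hs0 : 0 < s := by linarith
  have hs0' : 0 < s' := by linarith
  have hP : 3 / 4 * R ^ 2 - 3 * c ≤ s * s' := by
    have := (abs_le.1 k4).1
    nlinarith
  have hPl : R ^ 2 / 4 ≤ s * s' := by nlinarith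
  have e : 1 / s + 1 / s' - 2 / R = ((s + s') * R - 2 * (s * s')) / (s * s' * R) := by
    field_simp
    ring
  rw [e, abs_div, abs_of_pos (show 0 < s * s' * R by positivity)]
  have hS : |s + s' - 2 * R| ≤ 2 * c / R := by
    have hb3 : b ^ 2 / R ^ 3 ≤ c / R := by
      rw [div_le_div_iff₀ (by positivity) hR]; nlinarith
    have hb0 : 0 ≤ b ^ 2 / R ^ 3 := by positivity
    have h4 : 4 * c ^ 2 / R ^ 3 ≤ c / R := by
      rw [div_le_div_iff₀ (by positivity) hR]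
      nlinarith [mul_nonneg hc hR.le]
    have hcR0 : 0 ≤ c / R := by positivity
    obtain ⟨p1, p2⟩ := abs_le.1 k1
    rw [abs_le, show 2 * c / R = 2 * (c / R) by ring]
    constructor <;> linarith
  have hnum : |(s + s') * R - 2 * (s * s')| ≤ 10 * c := by
    have e2 : (s + s') * R - 2 * (s * s') = (s + s' - 2 * R) * R - 2 * (s * s' - R ^ 2) := by ring
    rw [e2]
    have h5 : |(s + s' - 2 * R) * R| ≤ 2 * c := by
      rw [abs_mul, abs_of_pos hR]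
      calc |s + s' - 2 * R| * R ≤ 2 * c / R * R := mul_le_mul_of_nonneg_right hS hR.le
        _ = 2 * c := by field_simp
    obtain ⟨p1, p2⟩ := abs_le.1 h5
    obtain ⟨p3, p4⟩ := abs_le.1 k4
    rw [abs_le]
    constructor <;> linarith
  rw [div_le_div_iff₀ (by positivity) (by positivity)]
  calc |(s + s') * R - 2 * (s * s')| * R ^ 3 ≤ 10 * c * R ^ 3 :=
        mul_le_mul_of_nonneg_right hnum (by positivity)
    _ ≤ 48 * c * (R ^ 2 / 4 * R) := by nlinarith [mul_nonneg hc (pow_pos hR 3).le]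
    _ ≤ 48 * c * (s * s' * R) := by
        apply mul_le_mul_of_nonneg_left _ (by positivity)
        exact mul_le_mul_of_nonneg_right hPl hR.le

variable {v z : R3}

theorem norm_sub_sq' (v z : R3) : ‖v - z‖ ^ 2 = ‖v‖ ^ 2 - 2 * inner ℝ v z + ‖z‖ ^ 2 :=
  norm_sub_sq_real v z

theorem norm_add_sq' (v z : R3) : ‖v + z‖ ^ 2 = ‖v‖ ^ 2 + 2 * inner ℝ v z + ‖z‖ ^ 2 :=
  norm_add_sq_real v z

theorem exp_norm (hv : 0 < ‖v‖) (hz : ‖z‖ ≤ ‖v‖ / 2) :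
    |‖v - z‖ + ‖v + z‖ - (2 * ‖v‖ + ‖z‖ ^ 2 / ‖v‖ - (inner ℝ v z) ^ 2 / ‖v‖ ^ 3)|
      ≤ 4 * ‖z‖ ^ 4 / ‖v‖ ^ 3 := by
  have h := (alg_core (R := ‖v‖) (c := ‖z‖ ^ 2) (b := inner ℝ v z) hv (by positivity)
    (by nlinarith [norm_nonneg z])
    (by
      have h := abs_real_inner_le_norm v z
      calc (inner ℝ v z) ^ 2 = |inner ℝ v z| ^ 2 := (sq_abs _).symm
        _ ≤ (‖v‖ * ‖z‖) ^ 2 := pow_le_pow_left₀ (abs_nonneg _) h 2
        _ = _ := by ring) (norm_nonneg _) (norm_nonneg _) (norm_sub_sq' v z) (norm_add_sq' v z)).1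
  calc _ ≤ _ := h
    _ = _ := by ring

theorem exp_inv (hv : 0 < ‖v‖) (hz : ‖z‖ ≤ ‖v‖ / 2) :
    |1 / ‖v - z‖ + 1 / ‖v + z‖ - 2 / ‖v‖| ≤ 48 * ‖z‖ ^ 2 / ‖v‖ ^ 3 :=
  alg_inv (R := ‖v‖) (c := ‖z‖ ^ 2) (b := inner ℝ v z) hv (by positivity)
    (by nlinarith [norm_nonneg z])
    (by
      have h := abs_real_inner_le_norm v z
      calc (inner ℝ v z) ^ 2 = |inner ℝ v z| ^ 2 := (sq_abs _).symm
        _ ≤ (‖v‖ * ‖z‖) ^ 2 := pow_le_pow_left₀ (abs_nonneg _) h 2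
        _ = _ := by ring) (norm_nonneg _) (norm_nonneg _) (norm_sub_sq' v z) (norm_add_sq' v z)

end Vale.Agent.P370.H198
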