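import Vale.Agent.P370.H198.Alg
import Vale.Agent.P363.R.H10.Approx

/-!
Integrals over cubes.
-/

namespace Vale.Agent.P370.H198

open MeasureTheory Set
open Vale.Agent.P363.Stmt (R3)

noncomputable section

theorem measurableSet_cube (A : ℝ) : MeasurableSet (cube A) := by
  unfold cube
  simp only [setOf_forall]
  exact MeasurableSet.iInter fun i => measurableSet_le (by fun_prop) measurable_const

theorem cube_indicator_prod (a : ℝ) (f : Fin 3 → ℝ → ℝ) (z : R3) :
    (cube a).indicator (fun z => ∏ k, f k (z k)) z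
      = ∏ k, (Icc (-a) a).indicator (f k) (z k) := by
  by_cases hz : z ∈ cube a
  · rw [indicator_of_mem hz]
    refine Finset.prod_congr rfl fun k _ => ?_
    rw [indicator_of_mem]
    exact abs_le.1 (hz k)
  · rw [indicator_of_notMem hz]
    have : ∃ k, ¬ |z k| ≤ a := by
      by_contra h
      push Not at h
      exact hz h
    obtain ⟨k, hk⟩ := this
    symm
    apply Finset.prod_eq_zero (Finset.mem_univ k)
    rw [indicator_of_notMem]
    intro h
    exact hk (abs_le.2 h)

theorem integral_cube_prod (a : ℝ) (f : Fin 3 → ℝ → ℝ) :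
    ∫ z in cube a, ∏ k, f k (z k) = ∏ k, ∫ t in Icc (-a) a, f k t := by
  rw [← integral_indicator (measurableSet_cube a)]
  simp only [cube_indicator_prod]
  have h := (PiLp.volume_preserving_toLp (ι := Fin 3)).integral_comp
    (MeasurableEquiv.toLp 2 (Fin 3 → ℝ)).measurableEmbedding
    (fun z : R3 => ∏ k, (Icc (-a) a).indicator (f k) (z k))
  rw [← h]
  simp only []
  have h2 := integral_fintype_prod_volume_eq_prod (𝕜 := ℝ) (E := fun _ : Fin 3 => ℝ)
    (fun k => (Icc (-a) a).indicator (f k))
  simp only [integral_indicator measurableSet_Icc] at h2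
  exact h2

theorem integral_Icc_one {a : ℝ} (ha : 0 ≤ a) : ∫ _t in Icc (-a) a, (1 : ℝ) = 2 * a := by
  rw [integral_Icc_eq_integral_Ioc, ← intervalIntegral.integral_of_le (by linarith)]
  simp; ring

theorem integral_Icc_id {a : ℝ} (ha : 0 ≤ a) : ∫ t in Icc (-a) a, t = 0 := by
  rw [integral_Icc_eq_integral_Ioc, ← intervalIntegral.integral_of_le (by linarith)]
  simp

theorem integral_Icc_sq {a : ℝ} (ha : 0 ≤ a) : ∫ t in Icc (-a) a, t ^ 2 = 2 * a ^ 3 / 3 := by
  rw [integral_Icc_eq_integral_Ioc, ← intervalIntegral.integral_of_le (by linarith)]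
  rw [integral_pow]
  norm_num
  ring

theorem integral_cube_coord {a : ℝ} (ha : 0 ≤ a) (i j : Fin 3) :
    ∫ z in cube a, z i * z j = if i = j then 8 * a ^ 5 / 3 else 0 := by
  by_cases hij : i = j
  · subst hij
    have h := integral_cube_prod a (fun k t => if k = i then t ^ 2 else 1)
    have e : ∀ z : R3, (∏ k, if k = i then (z k) ^ 2 else (1 : ℝ)) = z i * z i := by
      intro z
      rw [Finset.prod_ite_eq' Finset.univ i]
      simp [sq]
    simp only [e] at h
    rw [h, if_pos rfl]
    have : ∀ k : Fin 3, (∫ t in Icc (-a) a, if k = i then t ^ 2 else (1 : ℝ))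
        = if k = i then 2 * a ^ 3 / 3 else 2 * a := by
      intro k
      by_cases hk : k = i
      · simp only [if_pos hk, integral_Icc_sq ha]
      · simp only [if_neg hk, integral_Icc_one ha]
    simp only [this]
    fin_cases i <;> simp [Fin.prod_univ_three] <;> ring
  · rw [if_neg hij]
    have h := integral_cube_prod a (fun k t => if k = i then t else if k = j then t else 1)
    have e : ∀ z : R3, (∏ k, if k = i then z k else if k = j then z k else (1 : ℝ))
        = z i * z j := by
      intro z
      fin_cases i <;> fin_cases j <;> simp_all [Fin.prod_univ_three] <;> ring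
    simp only [e] at h
    rw [h]
    apply Finset.prod_eq_zero (Finset.mem_univ i)
    simp [integral_Icc_id ha]

theorem integral_cube_one {a : ℝ} (ha : 0 ≤ a) : ∫ _z in cube a, (1 : ℝ) = 8 * a ^ 3 := by
  have h := integral_cube_prod a (fun _ _ => 1)
  simp only [Finset.prod_const_one, integral_Icc_one ha] at h
  rw [h]
  simp; ring

theorem volume_cube_real {a : ℝ} (ha : 0 ≤ a) : volume.real (cube a) = 8 * a ^ 3 := by
  have h := integral_cube_one ha
  rw [setIntegral_const] at h
  simpa using h

theorem norm_le_of_mem_cube {a : ℝ} {z : R3} (hz : z ∈ cube a) : ‖z‖ ≤ 2 * a := by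
  have h0 := hz 0
  have h1 := hz 1
  have h2 := hz 2
  have ha : 0 ≤ a := (abs_nonneg _).trans h0
  have : ‖z‖ ^ 2 ≤ (2 * a) ^ 2 := by
    rw [P363.R.H10.norm_sq_eq_sum]
    have e0 : (z 0) ^ 2 ≤ a ^ 2 := by rw [← sq_abs]; exact pow_le_pow_left₀ (abs_nonneg _) h0 2
    have e1 : (z 1) ^ 2 ≤ a ^ 2 := by rw [← sq_abs]; exact pow_le_pow_left₀ (abs_nonneg _) h1 2
    have e2 : (z 2) ^ 2 ≤ a ^ 2 := by rw [← sq_abs]; exact pow_le_pow_left₀ (abs_nonneg _) h2 2
    nlinarith
  exact abs_le_of_sq_le_sq' this (by positivity) |>.2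

theorem isBounded_cube (a : ℝ) : Bornology.IsBounded (cube a) := by
  rw [isBounded_iff_forall_norm_le]
  exact ⟨2 * a, fun z hz => norm_le_of_mem_cube hz⟩

theorem volume_cube_lt_top (a : ℝ) : volume (cube a) < ⊤ :=
  (isBounded_cube a).measure_lt_top

theorem cube_subset_closedBall (a : ℝ) : cube a ⊆ Metric.closedBall 0 (2 * a) := by
  intro z hz
  simpa using norm_le_of_mem_cube hz

theorem integrableOn_cube_of_continuous {a : ℝ} {f : R3 → ℝ} (hf : Continuous f) :
    IntegrableOn f (cube a) := by
  have : IntegrableOn f (Metric.closedBall 0 (2 * a)) :=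
    hf.continuousOn.integrableOn_compact (isCompact_closedBall _ _)
  exact this.mono_set (cube_subset_closedBall a)

/-- `∫ (v · z)²` over the cube -/
theorem integral_cube_inner_sq {a : ℝ} (ha : 0 ≤ a) (v : R3) :
    ∫ z in cube a, (inner ℝ v z) ^ 2 = ‖v‖ ^ 2 * (8 * a ^ 5 / 3) := by
  have e : ∀ z : R3, (inner ℝ v z) ^ 2 = ∑ i, ∑ j, v i * v j * (z i * z j) := by
    intro z
    have : inner ℝ v z = ∑ i, v i * z i := by
      simp [PiLp.inner_apply, mul_comm]
    rw [this, sq, Finset.sum_mul_sum]
    refine Finset.sum_congr rfl fun i _ => Finset.sum_congr rfl fun j _ => by ring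
  simp only [e]
  rw [integral_finset_sum _ fun i _ => ?_]
  · have : ∀ i, ∫ z in cube a, ∑ j, v i * v j * (z i * z j)
        = v i * v i * (8 * a ^ 5 / 3) := by
      intro i
      rw [integral_finset_sum _ fun j _ => ?_]
      · simp only [integral_const_mul, integral_cube_coord ha]
        simp
      · exact integrableOn_cube_of_continuous (by fun_prop)
    simp only [this]
    rw [← Finset.sum_mul, P363.R.H10.norm_sq_eq_sum, Fin.sum_univ_three]
    ring
  · exact integrableOn_cube_of_continuous (by fun_prop)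

theorem integral_cube_norm_sq {a : ℝ} (ha : 0 ≤ a) :
    ∫ z in cube a, ‖z‖ ^ 2 = 8 * a ^ 5 := by
  have e : ∀ z : R3, ‖z‖ ^ 2 = ∑ i, z i * z i := by
    intro z
    rw [P363.R.H10.norm_sq_eq_sum, Fin.sum_univ_three]; ring
  simp only [e]
  rw [integral_finset_sum _ fun i _ => ?_]
  · simp only [integral_cube_coord ha]
    simp; ring
  · exact integrableOn_cube_of_continuous (by fun_prop)

end

end Vale.Agent.P370.H198
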