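import Vale.Agent.P370.H198.Lattice
import Vale.Agent.P370.H696.Cube

/-!
`UndispStmt` (unconditional), and `LatticeStmt` from `DispStmt`.
-/

namespace Vale.Agent.P370.H198

theorem undispStmt : UndispStmt := undisp_of_cube H696.cubeStmt

theorem latticeStmt_of_disp (h : DispStmt) : LatticeStmt := lattice_of H696.cubeStmt h

end Vale.Agent.P370.H198
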