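import Vale.Agent.P370.H198.Cell

/-!
The kernel `X h v = ∫_cell (1/2 (‖v‖ - ‖v - z‖) + h²/24 / ‖v - z‖) dz` and its bounds.
-/

namespace Vale.Agent.P370.H198

open MeasureTheory Set
open Vale.Agent.P363.Stmt (R3)

noncomputable section

theorem integrable_indicator_inv (r : ℝ) :
    Integrable fun w : R3 => (Ioo 0 r).indicator (fun s => 1 / s) ‖w‖ := by
  rw [P363.R.H10.integrable_radial]
  have e : ∀ s ∈ Ioi (0 : ℝ), s ^ 2 * (Ioo 0 r).indicator (fun s => 1 / s) s
      = (Ioo 0 r).indicator (fun s => s) s := by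
    intro s hs
    by_cases h : s ∈ Ioo 0 r
    · rw [indicator_of_mem h, indicator_of_mem h]
      have : s ≠ 0 := (mem_Ioi.1 hs).ne'
      field_simp
    · rw [indicator_of_notMem h, indicator_of_notMem h, mul_zero]
  rw [integrableOn_congr_fun e measurableSet_Ioi]
  have : Integrable ((Ioo 0 r).indicator (fun s : ℝ => s)) := by
    rw [integrable_indicator_iff measurableSet_Ioo]
    exact (continuous_id.integrableOn_Icc (a := 0) (b := r)).mono_set Ioo_subset_Icc_self
  exact this.integrableOn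

theorem integral_indicator_inv {r : ℝ} (hr : 0 ≤ r) :
    ∫ w : R3, (Ioo 0 r).indicator (fun s => 1 / s) ‖w‖ = 2 * Real.pi * r ^ 2 := by
  rw [P363.R.H10.integral_radial]
  have e : ∀ s ∈ Ioi (0 : ℝ), s ^ 2 * (Ioo 0 r).indicator (fun s => 1 / s) s
      = (Ioo 0 r).indicator (fun s => s) s := by
    intro s hs
    by_cases h : s ∈ Ioo 0 r
    · rw [indicator_of_mem h, indicator_of_mem h]
      have : s ≠ 0 := (mem_Ioi.1 hs).ne'
      field_simp
    · rw [indicator_of_notMem h, indicator_of_notMem h, mul_zero]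
  rw [setIntegral_congr_fun measurableSet_Ioi e, setIntegral_indicator measurableSet_Ioo]
  have : Ioi (0 : ℝ) ∩ Ioo 0 r = Ioo 0 r := by
    ext s; simp only [mem_inter_iff, mem_Ioi, mem_Ioo]; tauto
  rw [this, ← integral_Ioc_eq_integral_Ioo, ← intervalIntegral.integral_of_le hr, integral_id]
  ring

theorem indicator_inv_eq (r : ℝ) (w : R3) :
    (Ioo 0 r).indicator (fun s => 1 / s) ‖w‖ = if ‖w‖ < r then 1 / ‖w‖ else 0 := by
  by_cases h : ‖w‖ < r
  · rw [if_pos h]
    by_cases h0 : w = 0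
    · simp [h0]
    · rw [indicator_of_mem (show ‖w‖ ∈ Ioo 0 r from ⟨norm_pos_iff.2 h0, h⟩)]
  · rw [if_neg h, indicator_of_notMem (fun hh => h hh.2)]

theorem inv_le_split {r : ℝ} (hr : 0 < r) (w : R3) :
    1 / ‖w‖ ≤ (Ioo 0 r).indicator (fun s => 1 / s) ‖w‖ + 1 / r := by
  rw [indicator_inv_eq]
  split_ifs with h
  · have : 0 < 1 / r := by positivity
    linarith
  · rw [zero_add]
    exact one_div_le_one_div_of_le hr (not_lt.1 h)

theorem measurable_inv_sub (v : R3) : Measurable fun z : R3 => 1 / ‖v - z‖ := by fun_prop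

theorem integrableOn_inv_sub (v : R3) {S : Set R3} (hS : volume S < ⊤) :
    IntegrableOn (fun z => 1 / ‖v - z‖) S := by
  have h1 : Integrable fun z : R3 => (Ioo 0 1).indicator (fun s => 1 / s) ‖v - z‖ :=
    (integrable_indicator_inv 1).comp_sub_left v
  have h2 : IntegrableOn (fun _ : R3 => (1 : ℝ) / 1) S :=
    integrableOn_const (hs := hS.ne)
  refine Integrable.mono' (h1.integrableOn.add h2)
    (measurable_inv_sub v).aestronglyMeasurable (Filter.Eventually.of_forall fun z => ?_)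
  rw [Real.norm_of_nonneg (by positivity)]
  exact inv_le_split one_pos (v - z)

theorem setIntegral_inv_le (v : R3) {S : Set R3} (hS : volume S < ⊤) {r : ℝ} (hr : 0 < r) :
    ∫ z in S, 1 / ‖v - z‖ ≤ 2 * Real.pi * r ^ 2 + volume.real S / r := by
  have h1 : Integrable fun z : R3 => (Ioo 0 r).indicator (fun s => 1 / s) ‖v - z‖ :=
    (integrable_indicator_inv r).comp_sub_left v
  have h2 : IntegrableOn (fun _ : R3 => (1 : ℝ) / r) S :=
    integrableOn_const (hs := hS.ne)
  calc ∫ z in S, 1 / ‖v - z‖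
      ≤ ∫ z in S, ((Ioo 0 r).indicator (fun s => 1 / s) ‖v - z‖ + 1 / r) := by
        refine integral_mono (integrableOn_inv_sub v hS) (h1.integrableOn.add h2) fun z => ?_
        exact inv_le_split hr (v - z)
    _ = (∫ z in S, (Ioo 0 r).indicator (fun s => 1 / s) ‖v - z‖) + ∫ _z in S, 1 / r :=
        integral_add h1.integrableOn h2
    _ ≤ 2 * Real.pi * r ^ 2 + volume.real S / r := by
        apply add_le_add
        · rw [← integral_indicator_inv hr.le,
            ← integral_sub_left_eq_self (fun w : R3 => (Ioo 0 r).indicator (fun s => 1 / s) ‖w‖)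
              volume v]
          refine setIntegral_le_integral h1 (Filter.Eventually.of_forall fun z => ?_)
          exact indicator_nonneg (fun s hs => by have := hs.1; positivity) _
        · rw [setIntegral_const, smul_eq_mul]
          exact le_of_eq (by ring)

/-- integrand of the kernel -/
def Fk (h : ℝ) (v z : R3) : ℝ := 1 / 2 * (‖v‖ - ‖v - z‖) + h ^ 2 / 24 * (1 / ‖v - z‖)

/-- the kernel -/
def X (h : ℝ) (v : R3) : ℝ := ∫ z in cube (h / 2), Fk h v z

theorem Fk_integrableOn (h : ℝ) (v : R3) (a : ℝ) : IntegrableOn (Fk h v) (cube a) := by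
  unfold Fk
  refine IntegrableOn.add (integrableOn_cube_of_continuous (by fun_prop)) ?_
  exact (integrableOn_inv_sub v (volume_cube_lt_top a)).const_mul _

theorem X_near {h : ℝ} (hh : 0 < h) (v : R3) : |X h v| ≤ h ^ 4 := by
  unfold X
  have hi := integrableOn_inv_sub v (volume_cube_lt_top (h / 2))
  calc |∫ z in cube (h / 2), Fk h v z| ≤ ∫ z in cube (h / 2), |Fk h v z| :=
        abs_integral_le_integral_abs
    _ ≤ ∫ z in cube (h / 2), (h / 2 + h ^ 2 / 24 * (1 / ‖v - z‖)) := by
        refine setIntegral_mono_on (Fk_integrableOn h v _).abs ?_ (measurableSet_cube _) ?_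
        · exact (integrableOn_const (hs := (volume_cube_lt_top _).ne)).add (hi.const_mul _)
        · intro z hz
          unfold Fk
          have h1 : ‖z‖ ≤ h := by have := norm_le_of_mem_cube hz; linarith
          have h2 : |‖v‖ - ‖v - z‖| ≤ ‖z‖ := by
            have := abs_norm_sub_norm_le v (v - z)
            simpa using this
          have h3 : 0 ≤ h ^ 2 / 24 * (1 / ‖v - z‖) := by positivity
          refine (abs_add_le _ _).trans ?_
          rw [abs_mul, abs_of_pos (show (0 : ℝ) < 1 / 2 by norm_num), abs_of_nonneg h3]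
          linarith
    _ = h / 2 * h ^ 3 + h ^ 2 / 24 * ∫ z in cube (h / 2), 1 / ‖v - z‖ := by
        have hc : IntegrableOn (fun _ : R3 => h / 2) (cube (h / 2)) :=
          integrableOn_const (hs := (volume_cube_lt_top _).ne)
        rw [integral_add hc (hi.const_mul _),
          integral_const_mul, setIntegral_const, volume_cube_real (by positivity), smul_eq_mul]
        ring
    _ ≤ h / 2 * h ^ 3 + h ^ 2 / 24 * (2 * Real.pi * h ^ 2 + volume.real (cube (h / 2)) / h) := by
        have := setIntegral_inv_le v (volume_cube_lt_top (h / 2)) hh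
        have h0 : 0 ≤ h ^ 2 / 24 := by positivity
        have := mul_le_mul_of_nonneg_left this h0
        linarith
    _ ≤ h ^ 4 := by
        rw [volume_cube_real (by positivity)]
        have hpi : Real.pi ≤ 4 := Real.pi_le_four
        have e : 8 * (h / 2) ^ 3 / h = h ^ 2 := by field_simp; norm_num
        rw [e]
        have h4 : 0 ≤ h ^ 4 := by positivity
        nlinarith [mul_le_mul_of_nonneg_right hpi h4]

theorem neg_mem_cube {a : ℝ} {z : R3} : -z ∈ cube a ↔ z ∈ cube a := by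
  simp [cube]

theorem integral_cube_neg (a : ℝ) (f : R3 → ℝ) :
    ∫ z in cube a, f (-z) = ∫ z in cube a, f z := by
  rw [← integral_indicator (measurableSet_cube a), ← integral_indicator (measurableSet_cube a),
    ← integral_neg_eq_self ((cube a).indicator f)]
  congr 1
  ext z
  by_cases hz : z ∈ cube a
  · rw [indicator_of_mem hz, indicator_of_mem (neg_mem_cube.2 hz)]
  · rw [indicator_of_notMem hz, indicator_of_notMem (fun h => hz (neg_mem_cube.1 h))]

theorem X_far {h : ℝ} (hh : 0 < h) {v : R3} (hv : 2 * h ≤ ‖v‖) :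
    |X h v| ≤ 2 * h ^ 7 / ‖v‖ ^ 3 := by
  have hv0 : 0 < ‖v‖ := by linarith
  have hF := Fk_integrableOn h v (h / 2)
  have hFn : IntegrableOn (fun z => Fk h v (-z)) (cube (h / 2)) := by
    unfold Fk
    refine IntegrableOn.add (integrableOn_cube_of_continuous (by fun_prop)) ?_
    have h1 := integrableOn_inv_sub (-v) (volume_cube_lt_top (h / 2))
    have : (fun z : R3 => h ^ 2 / 24 * (1 / ‖v - -z‖)) = fun z => h ^ 2 / 24 * (1 / ‖-v - z‖) := by
      ext z
      congr 2
      rw [← norm_neg (-v - z)]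
      congr 1
      abel
    rw [this]
    exact h1.const_mul _
  have hX : X h v = 1 / 2 * ∫ z in cube (h / 2), (Fk h v z + Fk h v (-z)) := by
    rw [integral_add hF hFn, integral_cube_neg (h / 2) (Fk h v)]
    unfold X
    ring
  -- main part
  set M : R3 → ℝ := fun z => -1 / 2 * (‖z‖ ^ 2 / ‖v‖ - (inner ℝ v z) ^ 2 / ‖v‖ ^ 3)
    + h ^ 2 / 24 * (2 / ‖v‖) with hM
  have hMc : Continuous M := by rw [hM]; fun_prop
  have hMi : IntegrableOn M (cube (h / 2)) := integrableOn_cube_of_continuous hMc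
  have hM0 : ∫ z in cube (h / 2), M z = 0 := by
    have i1 : IntegrableOn (fun z : R3 => ‖z‖ ^ 2 / ‖v‖) (cube (h / 2)) :=
      integrableOn_cube_of_continuous (by fun_prop)
    have i2 : IntegrableOn (fun z : R3 => (inner ℝ v z) ^ 2 / ‖v‖ ^ 3) (cube (h / 2)) :=
      integrableOn_cube_of_continuous (by fun_prop)
    have i3 : IntegrableOn (fun z : R3 => -1 / 2 * (‖z‖ ^ 2 / ‖v‖ - (inner ℝ v z) ^ 2 / ‖v‖ ^ 3))
      (cube (h / 2)) := integrableOn_cube_of_continuous (by fun_prop)
    rw [hM]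
    simp only []
    rw [integral_add i3 (integrableOn_const (hs := (volume_cube_lt_top _).ne)),
      integral_const_mul, integral_sub i1 i2, integral_div, integral_div,
      integral_cube_norm_sq (by positivity), integral_cube_inner_sq (by positivity),
      setIntegral_const, volume_cube_real (by positivity), smul_eq_mul]
    field_simp
    ring
  have hb : ∀ z ∈ cube (h / 2), |Fk h v z + Fk h v (-z) - M z| ≤ 4 * h ^ 4 / ‖v‖ ^ 3 := by
    intro z hz
    have hzh : ‖z‖ ≤ h := by have := norm_le_of_mem_cube hz; linarith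
    have e1 := exp_norm hv0 (z := z) (by linarith)
    have e2 := exp_inv hv0 (z := z) (by linarith)
    have e : Fk h v z + Fk h v (-z) - M z
        = -1 / 2 * (‖v - z‖ + ‖v + z‖ - (2 * ‖v‖ + ‖z‖ ^ 2 / ‖v‖ - (inner ℝ v z) ^ 2 / ‖v‖ ^ 3))
          + h ^ 2 / 24 * (1 / ‖v - z‖ + 1 / ‖v + z‖ - 2 / ‖v‖) := by
      simp only [Fk, hM, sub_neg_eq_add]
      ring
    rw [e]
    refine (abs_add_le _ _).trans ?_
    rw [abs_mul, abs_mul, show |(-1 / 2 : ℝ)| = 1 / 2 by norm_num [abs_of_neg],
      abs_of_nonneg (show 0 ≤ h ^ 2 / 24 by positivity)]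
    have hz4 : ‖z‖ ^ 4 ≤ h ^ 4 := pow_le_pow_left₀ (norm_nonneg _) hzh 4
    have hz2 : ‖z‖ ^ 2 ≤ h ^ 2 := pow_le_pow_left₀ (norm_nonneg _) hzh 2
    calc _ ≤ 1 / 2 * (4 * ‖z‖ ^ 4 / ‖v‖ ^ 3) + h ^ 2 / 24 * (48 * ‖z‖ ^ 2 / ‖v‖ ^ 3) :=
          add_le_add (mul_le_mul_of_nonneg_left e1 (by norm_num))
            (mul_le_mul_of_nonneg_left e2 (by positivity))
      _ = (2 * ‖z‖ ^ 4 + 2 * (h ^ 2 * ‖z‖ ^ 2)) / ‖v‖ ^ 3 := by ring
      _ ≤ (2 * h ^ 4 + 2 * (h ^ 2 * h ^ 2)) / ‖v‖ ^ 3 := by
          apply div_le_div_of_nonneg_right _ (by positivity)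
          have := mul_le_mul_of_nonneg_left hz2 (show 0 ≤ h ^ 2 by positivity)
          linarith
      _ = _ := by ring
  have hsub : X h v = 1 / 2 * ∫ z in cube (h / 2), (Fk h v z + Fk h v (-z) - M z) := by
    have hadd : IntegrableOn (fun z => Fk h v z + Fk h v (-z)) (cube (h / 2)) := hF.add hFn
    rw [integral_sub hadd hMi, hM0, hX, sub_zero]
  rw [hsub, abs_mul, abs_of_pos (show (0 : ℝ) < 1 / 2 by norm_num)]
  have h5 : |∫ z in cube (h / 2), (Fk h v z + Fk h v (-z) - M z)|
      ≤ 4 * h ^ 4 / ‖v‖ ^ 3 * (volume.real (cube (h / 2))) := by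
    have h6 := norm_setIntegral_le_of_norm_le_const (μ := volume)
      (f := fun z => Fk h v z + Fk h v (-z) - M z) (volume_cube_lt_top (h / 2)) hb
    exact h6
  rw [volume_cube_real (by positivity)] at h5
  calc _ ≤ 1 / 2 * (4 * h ^ 4 / ‖v‖ ^ 3 * (8 * (h / 2) ^ 3)) :=
        mul_le_mul_of_nonneg_left h5 (by norm_num)
    _ = 2 * h ^ 7 / ‖v‖ ^ 3 := by ring

/-- product form of the bound -/
theorem X_le_prod {h : ℝ} (hh : 0 < h) (v : R3) :
    |X h v| ≤ 27 * h ^ 4 * ∏ i, 1 / (1 + |v i| / h) := by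
  have hP : ∀ i, 0 < 1 + |v i| / h := fun i => by positivity
  have hc : ∀ i, |v i| ≤ ‖v‖ := P363.R.H10.abs_coord_le v
  rw [Fin.prod_univ_three]
  rcases le_or_gt (2 * h) ‖v‖ with hv | hv
  · refine (X_far hh hv).trans ?_
    have hv0 : 0 < ‖v‖ := by linarith
    have hle : ∀ i, 1 + |v i| / h ≤ 3 / 2 * (‖v‖ / h) := by
      intro i
      have h1 : |v i| / h ≤ ‖v‖ / h := div_le_div_of_nonneg_right (hc i) hh.le
      have h2 : 2 ≤ ‖v‖ / h := by rw [le_div_iff₀ hh]; exact hv
      linarith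
    have hinv : ∀ i, 2 / 3 * (h / ‖v‖) ≤ 1 / (1 + |v i| / h) := by
      intro i
      calc 2 / 3 * (h / ‖v‖) = 1 / (3 / 2 * (‖v‖ / h)) := by field_simp
        _ ≤ _ := one_div_le_one_div_of_le (hP i) (hle i)
    have h0 : 0 ≤ 2 / 3 * (h / ‖v‖) := by positivity
    calc 2 * h ^ 7 / ‖v‖ ^ 3
        ≤ 27 * h ^ 4 * (2 / 3 * (h / ‖v‖) * (2 / 3 * (h / ‖v‖)) * (2 / 3 * (h / ‖v‖))) := by
          have : 27 * h ^ 4 * (2 / 3 * (h / ‖v‖) * (2 / 3 * (h / ‖v‖)) * (2 / 3 * (h / ‖v‖)))
              = 8 * h ^ 7 / ‖v‖ ^ 3 := by field_simp; norm_num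
          rw [this]
          apply div_le_div_of_nonneg_right _ (by positivity)
          have : 0 ≤ h ^ 7 := by positivity
          linarith
      _ ≤ _ := by
          apply mul_le_mul_of_nonneg_left _ (by positivity)
          exact mul_le_mul (mul_le_mul (hinv 0) (hinv 1) h0 (by positivity)) (hinv 2) h0
            (by positivity)
  · refine (X_near hh v).trans ?_
    have hinv : ∀ i, 1 / 3 ≤ 1 / (1 + |v i| / h) := by
      intro i
      apply one_div_le_one_div_of_le (hP i)
      have h1 : |v i| / h ≤ 2 := by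
        rw [div_le_iff₀ hh]; linarith [hc i]
      linarith
    calc h ^ 4 = 27 * h ^ 4 * (1 / 3 * (1 / 3) * (1 / 3)) := by ring
      _ ≤ _ := by
          apply mul_le_mul_of_nonneg_left _ (by positivity)
          exact mul_le_mul (mul_le_mul (hinv 0) (hinv 1) (by norm_num) (by positivity)) (hinv 2)
            (by norm_num) (by positivity)

end

end Vale.Agent.P370.H198
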