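import Vale.Agent.P370.H198.UndispMain

/-!
Assembly: `CubeStmt → DispStmt → LatticeStmt`.
-/

namespace Vale.Agent.P370.H198

open MeasureTheory Set
open Vale.Agent.P363.Stmt (R3)

noncomputable section

theorem Bnd.abs_int {q L : R3 → ℝ} {N : ℝ} (hq : IsLap q L) (hb : Bnd q L N) :
    ∫ x, |q x| ≤ N := by
  refine le_trans (integral_mono hq.q_int.abs ?_ fun x => ?_) hb.mom
  · have := hq.int_q.abs
    refine this.congr (Filter.Eventually.of_forall fun x => ?_)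
    simp only [abs_mul]
    rw [abs_of_nonneg (by positivity : (0 : ℝ) ≤ 1 + ‖x‖ ^ 4)]
  · simp only
    have : 0 ≤ |q x| := abs_nonneg _
    have : 0 ≤ ‖x‖ ^ 4 * |q x| := by positivity
    nlinarith

theorem lattice_of (hc : CubeStmt) (hd : DispStmt) : LatticeStmt := by
  obtain ⟨C₁, hC₁, h1⟩ := undisp_of_cube hc
  obtain ⟨C₂, hC₂, h2⟩ := hd
  refine ⟨C₁ + C₂, by positivity, fun t ht u G U hu s hs q L N hq hb => ?_⟩
  have b1 := h1 t ht q L N hq hb
  have b2 := h2 t ht u G U hu s hs q N hq.q_int hb.sup (hb.abs_int hq)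
  have hN := hb.nonneg
  have hU : 1 ≤ (1 + U) ^ 2 := one_le_pow₀ (by have := hu.nonneg; linarith)
  rw [Finset.sum_sub_distrib] at b2
  have hk : (t : ℝ) ^ 3 * VA (((t : ℝ) ^ 4 + 1 / 2) / t) 0 + Real.pi * t / 6 = kap t := rfl
  rw [hk] at b1
  have e : (∑ k ∈ box (t ^ 4), pot q (pt (1 / t) k + s k))
      - kap t * (∫ x, q x) + 2 * Real.pi / 3 * (t : ℝ) ^ 3 * (∫ x, ‖x‖ ^ 2 * q x)
      + (∫ x, u x * q x)
      = ((∑ k ∈ box (t ^ 4), pot q (pt (1 / t) k)) - kap t * (∫ x, q x)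
          + 2 * Real.pi / 3 * (t : ℝ) ^ 3 * (∫ x, ‖x‖ ^ 2 * q x))
        + ((∑ k ∈ box (t ^ 4), pot q (pt (1 / t) k + s k))
          - (∑ k ∈ box (t ^ 4), pot q (pt (1 / t) k)) + (∫ x, u x * q x)) := by ring
  rw [e]
  refine (abs_add_le _ _).trans ?_
  have hs0 : 0 ≤ Real.sqrt t := Real.sqrt_nonneg _
  have c1 : C₁ * N / Real.sqrt t ≤ C₁ * (1 + U) ^ 2 * N / Real.sqrt t := by
    apply div_le_div_of_nonneg_right _ hs0
    have : C₁ * N ≤ C₁ * N * (1 + U) ^ 2 := le_mul_of_one_le_right (by positivity) hU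
    calc C₁ * N ≤ _ := this
      _ = _ := by ring
  calc _ ≤ C₁ * (1 + U) ^ 2 * N / Real.sqrt t + C₂ * (1 + U) ^ 2 * N / Real.sqrt t :=
        add_le_add (b1.trans c1) b2
    _ = _ := by ring

end

end Vale.Agent.P370.H198
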