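import Vale.Agent.P370.H198.Kern
import Mathlib.NumberTheory.Harmonic.Bounds

/-!
The sum of the kernel over the lattice.
-/

namespace Vale.Agent.P370.H198

open MeasureTheory Set
open Vale.Agent.P363.Stmt (R3)

noncomputable section

theorem sum_harm (n : ℕ) :
    ∑ i ∈ Finset.Icc (-(n : ℤ)) n, 1 / (1 + |(i : ℝ)|) ≤ 2 * (1 + Real.log (n + 1)) := by
  classical
  have hsub : Finset.Icc (-(n : ℤ)) n ⊆
      (Finset.range (n + 1)).image (fun i : ℕ => (i : ℤ)) ∪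
        (Finset.range (n + 1)).image (fun i : ℕ => -(i : ℤ)) := by
    intro i hi
    rw [Finset.mem_Icc] at hi
    rw [Finset.mem_union, Finset.mem_image, Finset.mem_image]
    rcases le_total 0 i with h | h
    · left; exact ⟨i.toNat, by rw [Finset.mem_range]; omega, by omega⟩
    · right; exact ⟨(-i).toNat, by rw [Finset.mem_range]; omega, by omega⟩
  have hnn : ∀ i : ℤ, 0 ≤ 1 / (1 + |(i : ℝ)|) := fun i => by positivity
  have hH : ∑ i ∈ Finset.range (n + 1), 1 / (1 + (i : ℝ)) ≤ 1 + Real.log (n + 1) := by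
    have h := harmonic_le_one_add_log (n + 1)
    rw [harmonic] at h
    push_cast at h
    refine le_trans (le_of_eq ?_) h
    refine Finset.sum_congr rfl fun i _ => ?_
    rw [one_div, add_comm]
  calc ∑ i ∈ Finset.Icc (-(n : ℤ)) n, 1 / (1 + |(i : ℝ)|)
      ≤ ∑ i ∈ (Finset.range (n + 1)).image (fun i : ℕ => (i : ℤ)) ∪
        (Finset.range (n + 1)).image (fun i : ℕ => -(i : ℤ)), 1 / (1 + |(i : ℝ)|) :=
        Finset.sum_le_sum_of_subset_of_nonneg hsub fun i _ _ => hnn i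
    _ ≤ (∑ i ∈ (Finset.range (n + 1)).image (fun i : ℕ => (i : ℤ)), 1 / (1 + |(i : ℝ)|))
        + ∑ i ∈ (Finset.range (n + 1)).image (fun i : ℕ => -(i : ℤ)), 1 / (1 + |(i : ℝ)|) := by
        rw [← Finset.sum_union_inter]
        have : 0 ≤ ∑ i ∈ (Finset.range (n + 1)).image (fun i : ℕ => (i : ℤ)) ∩
          (Finset.range (n + 1)).image (fun i : ℕ => -(i : ℤ)), 1 / (1 + |(i : ℝ)|) :=
          Finset.sum_nonneg fun i _ => hnn i
        linarith
    _ = (∑ i ∈ Finset.range (n + 1), 1 / (1 + (i : ℝ)))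
        + ∑ i ∈ Finset.range (n + 1), 1 / (1 + (i : ℝ)) := by
        rw [Finset.sum_image (by intro a _ b _ h; simpa using h),
          Finset.sum_image (by intro a _ b _ h; simpa using h)]
        congr 1
        · refine Finset.sum_congr rfl fun i _ => ?_
          simp
        · refine Finset.sum_congr rfl fun i _ => ?_
          simp
    _ ≤ _ := by linarith

theorem exists_clamp (K : ℕ) (τ : ℝ) :
    ∃ j₀ : ℤ, -(K : ℤ) ≤ j₀ ∧ j₀ ≤ K ∧
      ∀ j : ℤ, -(K : ℤ) ≤ j → j ≤ K → |(j : ℝ) - j₀| ≤ |τ - j| + 1 := by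
  refine ⟨max (-(K : ℤ)) (min K ⌊τ⌋), by simp, by simp, fun j h1 h2 => ?_⟩
  have hcl : |j - max (-(K : ℤ)) (min K ⌊τ⌋)| ≤ |j - ⌊τ⌋| := by
    rw [abs_le]
    constructor <;> rcases abs_cases (j - ⌊τ⌋) with h | h <;> omega
  have hcl' : |(j : ℝ) - ((max (-(K : ℤ)) (min K ⌊τ⌋) : ℤ) : ℝ)| ≤ |(j : ℝ) - (⌊τ⌋ : ℝ)| := by
    have := hcl
    exact_mod_cast this
  refine hcl'.trans ?_
  have h3 : |τ - (⌊τ⌋ : ℝ)| ≤ 1 := by
    rw [abs_of_nonneg (by linarith [Int.floor_le τ])]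
    linarith [Int.lt_floor_add_one τ]
  calc |(j : ℝ) - ⌊τ⌋| = |(τ - ⌊τ⌋) - (τ - j)| := by congr 1; ring
    _ ≤ |τ - ⌊τ⌋| + |τ - j| := abs_sub _ _
    _ ≤ _ := by linarith

theorem sum_shift_le (K : ℕ) (τ : ℝ) :
    ∑ j ∈ Finset.Icc (-(K : ℤ)) K, 1 / (1 + |τ - j|) ≤ 4 * (1 + Real.log (2 * K + 1)) := by
  classical
  obtain ⟨j₀, h1, h2, h3⟩ := exists_clamp K τ
  have hterm : ∀ j ∈ Finset.Icc (-(K : ℤ)) K,
      1 / (1 + |τ - j|) ≤ 2 * (1 / (1 + |((j - j₀ : ℤ) : ℝ)|)) := by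
    intro j hj
    rw [Finset.mem_Icc] at hj
    have h4 := h3 j hj.1 hj.2
    push_cast
    rw [show 2 * (1 / (1 + |(j : ℝ) - j₀|)) = 2 / (1 + |(j : ℝ) - j₀|) by ring,
      div_le_div_iff₀ (by positivity) (by positivity)]
    have := abs_nonneg (τ - j)
    linarith
  calc _ ≤ ∑ j ∈ Finset.Icc (-(K : ℤ)) K, 2 * (1 / (1 + |((j - j₀ : ℤ) : ℝ)|)) :=
        Finset.sum_le_sum hterm
    _ = 2 * ∑ i ∈ (Finset.Icc (-(K : ℤ)) K).image (fun j => j - j₀), 1 / (1 + |(i : ℝ)|) := by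
        rw [Finset.sum_image (by intro a _ b _ h; simpa using h), Finset.mul_sum]
    _ ≤ 2 * ∑ i ∈ Finset.Icc (-((2 * K : ℕ) : ℤ)) ((2 * K : ℕ) : ℤ), 1 / (1 + |(i : ℝ)|) := by
        apply mul_le_mul_of_nonneg_left _ (by norm_num)
        apply Finset.sum_le_sum_of_subset_of_nonneg
        · intro i hi
          rw [Finset.mem_image] at hi
          obtain ⟨j, hj, rfl⟩ := hi
          rw [Finset.mem_Icc] at hj ⊢
          push_cast
          constructor <;> omega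
        · intro i _ _
          positivity
    _ ≤ 2 * (2 * (1 + Real.log (((2 * K : ℕ) : ℝ) + 1))) :=
        mul_le_mul_of_nonneg_left (sum_harm _) (by norm_num)
    _ = _ := by push_cast; ring

theorem log_bound {t : ℕ} (ht : 1 ≤ t) :
    4 * (1 + Real.log (2 * ((t ^ 4 : ℕ) : ℝ) + 1)) ≤ 108 * (t : ℝ) ^ (1 / 6 : ℝ) := by
  have ht1 : (1 : ℝ) ≤ t := by exact_mod_cast ht
  have ht0 : (0 : ℝ) < t := by linarith
  have h1 : Real.log (2 * ((t ^ 4 : ℕ) : ℝ) + 1) ≤ Real.log 3 + 4 * Real.log t := by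
    rw [← Real.log_rpow ht0, ← Real.log_mul (by norm_num) (by positivity)]
    apply Real.log_le_log (by positivity)
    rw [show (t : ℝ) ^ (4 : ℝ) = (t : ℝ) ^ 4 by norm_cast]
    push_cast
    have : (1 : ℝ) ≤ (t : ℝ) ^ 4 := one_le_pow₀ ht1
    linarith
  have h2 : Real.log t ≤ (t : ℝ) ^ (1 / 6 : ℝ) / (1 / 6) :=
    Real.log_le_rpow_div ht0.le (by norm_num)
  have h3 : Real.log 3 ≤ 2 := by
    have := Real.log_le_sub_one_of_pos (show (0 : ℝ) < 3 by norm_num)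
    linarith
  have h4 : (1 : ℝ) ≤ (t : ℝ) ^ (1 / 6 : ℝ) := Real.one_le_rpow ht1 (by norm_num)
  have h5 : Real.log t ≤ 6 * (t : ℝ) ^ (1 / 6 : ℝ) := by
    calc Real.log t ≤ (t : ℝ) ^ (1 / 6 : ℝ) / (1 / 6) := h2
      _ = _ := by ring
  linarith

theorem sum_X_le {t : ℕ} (ht : 1 ≤ t) (x : R3) :
    ∑ k ∈ box (t ^ 4), |X (1 / t) (x - pt (1 / t) k)| ≤ 27 * 108 ^ 3 * Real.sqrt t / t ^ 4 := by
  have ht1 : (1 : ℝ) ≤ t := by exact_mod_cast ht
  have ht0 : (0 : ℝ) < t := by linarith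
  have hh : (0 : ℝ) < 1 / t := by positivity
  have h1 : ∀ k : Fin 3 → ℤ, |X (1 / t) (x - pt (1 / t) k)|
      ≤ 27 * (1 / t) ^ 4 * ∏ i, 1 / (1 + |t * x i - k i|) := by
    intro k
    refine (X_le_prod hh _).trans (le_of_eq ?_)
    congr 1
    refine Finset.prod_congr rfl fun i _ => ?_
    congr 2
    rw [div_eq_mul_one_div, one_div_one_div, ← abs_of_pos ht0, ← abs_mul, abs_of_pos ht0]
    congr 1
    simp only [pt, PiLp.sub_apply]
    field_simp
  calc _ ≤ ∑ k ∈ box (t ^ 4), 27 * (1 / t) ^ 4 * ∏ i, 1 / (1 + |t * x i - k i|) :=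
        Finset.sum_le_sum fun k _ => h1 k
    _ = 27 * (1 / t) ^ 4 * ∏ i : Fin 3, ∑ j ∈ Finset.Icc (-((t ^ 4 : ℕ) : ℤ)) ((t ^ 4 : ℕ) : ℤ),
          1 / (1 + |t * x i - j|) := by
        rw [← Finset.mul_sum, box, Finset.prod_univ_sum]
    _ ≤ 27 * (1 / t) ^ 4 * ∏ _i : Fin 3, (108 * (t : ℝ) ^ (1 / 6 : ℝ)) := by
        apply mul_le_mul_of_nonneg_left _ (by positivity)
        apply Finset.prod_le_prod
        · intro i _
          exact Finset.sum_nonneg fun j _ => by positivity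
        · intro i _
          exact (sum_shift_le (t ^ 4) (t * x i)).trans (log_bound ht)
    _ = 27 * 108 ^ 3 * Real.sqrt t / t ^ 4 := by
        rw [Finset.prod_const, Finset.card_univ, Fintype.card_fin, mul_pow, ← Real.rpow_natCast
          ((t : ℝ) ^ (1 / 6 : ℝ)), ← Real.rpow_mul ht0.le, Real.sqrt_eq_rpow]
        norm_num
        ring

end

end Vale.Agent.P370.H198
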