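import Vale.Agent.P370.H198.Cell

/-!
Decomposition of the integral over the cube into the integrals over the cells of the lattice.
-/

namespace Vale.Agent.P370.H198

open MeasureTheory Set
open Vale.Agent.P363.Stmt (R3)

noncomputable section

/-- half open cell around the lattice point `h k` -/
def ocell (h : ℝ) (k : Fin 3 → ℤ) : Set R3 :=
  {z | ∀ i, h * k i - h / 2 < z i ∧ z i ≤ h * k i + h / 2}

/-- half open cube -/
def ocube (a : ℝ) : Set R3 := {z | ∀ i, -a < z i ∧ z i ≤ a}

theorem ocube_ae_eq (a : ℝ) : (ocube a : Set R3) =ᵐ[volume] cube a := by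
  have h := (Measure.univ_pi_Ioc_ae_eq_Icc (μ := fun _ : Fin 3 => (volume : Measure ℝ))
    (f := fun _ => -a) (g := fun _ => a))
  have hq := (PiLp.volume_preserving_ofLp (ι := Fin 3)).quasiMeasurePreserving
  have h2 := hq.preimage_ae_eq h
  have e1 : (@WithLp.ofLp 2 (Fin 3 → ℝ)) ⁻¹' (pi univ fun _ => Ioc (-a) a) = ocube a := by
    ext z
    simp [ocube]
  have e2 : (@WithLp.ofLp 2 (Fin 3 → ℝ)) ⁻¹' (Icc (fun _ => -a) (fun _ => a)) = cube a := by
    ext z
    simp only [mem_preimage, mem_Icc, Pi.le_def, cube, mem_ofPred_eq, abs_le]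
    constructor
    · rintro ⟨h1, h2⟩ i; exact ⟨h1 i, h2 i⟩
    · intro h; exact ⟨fun i => (h i).1, fun i => (h i).2⟩
  rw [e1, e2] at h2
  exact h2

theorem measurableSet_ocell (h : ℝ) (k : Fin 3 → ℤ) : MeasurableSet (ocell h k) := by
  unfold ocell
  simp only [ofPred_forall, ofPred_and]
  exact MeasurableSet.iInter fun i =>
    (measurableSet_lt measurable_const (by fun_prop)).inter
      (measurableSet_le (by fun_prop) measurable_const)

theorem mem_ocell_iff {h : ℝ} (hh : 0 < h) (k : Fin 3 → ℤ) (z : R3) :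
    z ∈ ocell h k ↔ ∀ i, k i = ⌈z i / h - 1 / 2⌉ := by
  unfold ocell
  simp only [mem_ofPred_eq]
  refine forall_congr' fun i => ?_
  rw [eq_comm, Int.ceil_eq_iff]
  constructor
  · rintro ⟨h1, h2⟩
    constructor
    · rw [lt_sub_iff_add_lt, lt_div_iff₀ hh]; nlinarith
    · rw [sub_le_iff_le_add, div_le_iff₀ hh]; nlinarith
  · rintro ⟨h1, h2⟩
    rw [lt_sub_iff_add_lt, lt_div_iff₀ hh] at h1
    rw [sub_le_iff_le_add, div_le_iff₀ hh] at h2
    constructor <;> nlinarith

theorem iUnion_ocell {h : ℝ} (hh : 0 < h) (K : ℕ) :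
    (⋃ k ∈ box K, ocell h k) = ocube ((K + 1 / 2) * h) := by
  ext z
  simp only [mem_iUnion, exists_prop, mem_ocell_iff hh]
  constructor
  · rintro ⟨k, hk, hz⟩
    rw [box, Fintype.mem_piFinset] at hk
    intro i
    have hki := Finset.mem_Icc.1 (hk i)
    have := hz i
    rw [eq_comm, Int.ceil_eq_iff] at this
    obtain ⟨h1, h2⟩ := this
    rw [lt_sub_iff_add_lt, lt_div_iff₀ hh] at h1
    rw [sub_le_iff_le_add, div_le_iff₀ hh] at h2
    have c1 : -(K : ℝ) ≤ (k i : ℝ) := by exact_mod_cast hki.1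
    have c2 : (k i : ℝ) ≤ K := by exact_mod_cast hki.2
    constructor <;> nlinarith
  · intro hz
    refine ⟨fun i => ⌈z i / h - 1 / 2⌉, ?_, fun i => rfl⟩
    rw [box, Fintype.mem_piFinset]
    intro i
    obtain ⟨h1, h2⟩ := hz i
    rw [Finset.mem_Icc]
    constructor
    · have : (-(K : ℤ) - 1 : ℤ) < ⌈z i / h - 1 / 2⌉ := by
        rw [Int.lt_ceil]
        push_cast
        rw [lt_sub_iff_add_lt, lt_div_iff₀ hh]
        nlinarith
      omega
    · rw [Int.ceil_le]
      push_cast
      rw [sub_le_iff_le_add, div_le_iff₀ hh]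
      linarith

theorem ocell_eq_preimage (h : ℝ) (k : Fin 3 → ℤ) :
    (fun z : R3 => z + pt h k) ⁻¹' ocell h k = ocube (h / 2) := by
  ext z
  simp only [mem_preimage, ocell, ocube, mem_ofPred_eq, pt, PiLp.add_apply]
  refine forall_congr' fun i => ?_
  constructor
  · rintro ⟨h1, h2⟩; constructor <;> linarith
  · rintro ⟨h1, h2⟩; constructor <;> linarith

theorem setIntegral_ocell (h : ℝ) (k : Fin 3 → ℤ) (f : R3 → ℝ) :
    ∫ z in ocell h k, f z = ∫ z in cube (h / 2), f (pt h k + z) := by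
  rw [setIntegral_congr_set (ocube_ae_eq (h / 2)).symm, ← ocell_eq_preimage h k]
  have hmp : MeasurePreserving (fun z : R3 => z + pt h k) volume volume :=
    measurePreserving_add_right _ _
  rw [← hmp.setIntegral_preimage_emb (measurableEmbedding_addRight (pt h k)) f]
  refine setIntegral_congr_fun ((measurable_add_const (pt h k)) (measurableSet_ocell h k)) ?_
  intro z _
  simp only [add_comm z]

/-- **Tiling**. -/
theorem integral_tile {h : ℝ} (hh : 0 < h) (K : ℕ) {f : R3 → ℝ}
    (hf : IntegrableOn f (cube ((K + 1 / 2) * h))) :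
    ∫ z in cube ((K + 1 / 2) * h), f z
      = ∑ k ∈ box K, ∫ z in cube (h / 2), f (pt h k + z) := by
  have hf' : IntegrableOn f (ocube ((K + 1 / 2) * h)) :=
    hf.congr_set_ae (ocube_ae_eq _)
  rw [setIntegral_congr_set (ocube_ae_eq _).symm, ← iUnion_ocell hh K,
    integral_biUnion_finset _ (fun k _ => measurableSet_ocell h k)]
  · exact Finset.sum_congr rfl fun k _ => setIntegral_ocell h k f
  · intro k _ k' _ hkk'
    rw [Function.onFun, Set.disjoint_left]
    intro z hz hz'
    rw [mem_ocell_iff hh] at hz hz'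
    exact hkk' (funext fun i => (hz i).trans (hz' i).symm)
  · intro k hk
    apply hf'.mono_set
    rw [← iUnion_ocell hh K]
    exact subset_biUnion_of_mem hk

end

end Vale.Agent.P370.H198
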