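import Vale.Agent.P370.H198.Sum
import Vale.Agent.P370.H198.Tile

/-!
Block P3: the undisplaced lattice.
-/

namespace Vale.Agent.P370.H198

open MeasureTheory Set
open Vale.Agent.P363.Stmt (R3)

noncomputable section

/-! ### integrability -/

theorem integrable_of_weight {q : R3 → ℝ} {w : R3 → ℝ} (hw : Measurable w) (hw1 : ∀ x, 1 ≤ w x)
    (h : Integrable fun x => w x * q x) {g : R3 → ℝ} (hg : Measurable g)
    (hgw : ∀ x, |g x| ≤ w x) : Integrable fun x => g x * q x := by
  have e : (fun x => g x * q x) = fun x => (g x / w x) * (w x * q x) := by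
    ext x
    have : w x ≠ 0 := by have := hw1 x; positivity
    field_simp
  rw [e]
  refine h.bdd_mul (c := 1) (hg.div hw).aestronglyMeasurable (Filter.Eventually.of_forall fun x => ?_)
  have : 0 < w x := by have := hw1 x; linarith
  rw [Real.norm_eq_abs, abs_div, abs_of_pos this, div_le_one this]
  exact hgw x

theorem IsLap.q_int {q L : R3 → ℝ} (h : IsLap q L) : Integrable q := by
  have := integrable_of_weight (w := fun x => 1 + ‖x‖ ^ 4) (g := fun _ => 1) (by fun_prop)
    (fun x => by have : 0 ≤ ‖x‖ ^ 4 := by positivity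
                 linarith) h.int_q measurable_const
    (fun x => by have : 0 ≤ ‖x‖ ^ 4 := by positivity
                 simp only [abs_one]; linarith)
  simpa using this

theorem IsLap.q4_int {q L : R3 → ℝ} (h : IsLap q L) : Integrable fun x => ‖x‖ ^ 4 * q x :=
  integrable_of_weight (w := fun x => 1 + ‖x‖ ^ 4) (by fun_prop)
    (fun x => by have : 0 ≤ ‖x‖ ^ 4 := by positivity
                 linarith) h.int_q (by fun_prop)
    (fun x => by have : 0 ≤ ‖x‖ ^ 4 := by positivity
                 rw [abs_of_nonneg this]; linarith)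

theorem IsLap.q2_int {q L : R3 → ℝ} (h : IsLap q L) : Integrable fun x => ‖x‖ ^ 2 * q x :=
  integrable_of_weight (w := fun x => 1 + ‖x‖ ^ 4) (by fun_prop)
    (fun x => by have : 0 ≤ ‖x‖ ^ 4 := by positivity
                 linarith) h.int_q (by fun_prop)
    (fun x => by
      rw [abs_of_nonneg (by positivity)]
      nlinarith [sq_nonneg (‖x‖ ^ 2 - 1), sq_nonneg (‖x‖ ^ 2)])

theorem IsLap.L_int {q L : R3 → ℝ} (h : IsLap q L) : Integrable L := by
  have := integrable_of_weight (w := fun x => 1 + ‖x‖) (g := fun _ => 1) (by fun_prop)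
    (fun x => by have : 0 ≤ ‖x‖ := by positivity
                 linarith) h.int_L measurable_const
    (fun x => by have : 0 ≤ ‖x‖ := by positivity
                 simp only [abs_one]; linarith)
  simpa using this

theorem IsLap.Ln_int {q L : R3 → ℝ} (h : IsLap q L) (y : R3) :
    Integrable fun x => ‖x - y‖ * L x := by
  have h1 : Integrable fun x => ‖x‖ * L x :=
    integrable_of_weight (w := fun x => 1 + ‖x‖) (by fun_prop)
    (fun x => by have : 0 ≤ ‖x‖ := by positivity
                 linarith) h.int_L (by fun_prop)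
    (fun x => by have : 0 ≤ ‖x‖ := by positivity
                 rw [abs_of_nonneg this]; linarith)
  have h2 : Integrable fun x => ‖x‖ * |L x| + ‖y‖ * |L x| := by
    refine Integrable.add ?_ (h.L_int.abs.const_mul _)
    have := h1.abs
    simpa [abs_mul] using this
  refine Integrable.mono' h2 ?_ (Filter.Eventually.of_forall fun x => ?_)
  · exact (by fun_prop : Continuous fun x : R3 => ‖x - y‖).aestronglyMeasurable.mul
      h.L_int.aestronglyMeasurable
  · rw [Real.norm_eq_abs, abs_mul, abs_of_nonneg (norm_nonneg _), ← add_mul]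
    exact mul_le_mul_of_nonneg_right (norm_sub_le _ _) (abs_nonneg _)

/-- Fubini for `g x * F (x, z)` on `R3 × S`. -/
theorem integrable_prod_of_bound {g : R3 → ℝ} (hg : Integrable g) {S : Set R3}
    {F : R3 × R3 → ℝ} (hF : Measurable F) (hFi : ∀ x, IntegrableOn (fun z => F (x, z)) S)
    {C : ℝ} (hC : ∀ x, ∫ z in S, |F (x, z)| ≤ C) :
    Integrable (fun p : R3 × R3 => g p.1 * F p) (volume.prod (volume.restrict S)) := by
  have hm : AEStronglyMeasurable (fun p : R3 × R3 => g p.1 * F p)
      (volume.prod (volume.restrict S)) :=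
    (hg.aestronglyMeasurable.comp_fst).mul hF.aestronglyMeasurable
  rw [integrable_prod_iff hm]
  refine ⟨Filter.Eventually.of_forall fun x => (hFi x).const_mul (g x), ?_⟩
  refine Integrable.mono' (hg.abs.mul_const C) hm.norm.integral_prod_right'
    (Filter.Eventually.of_forall fun x => ?_)
  simp only [Real.norm_eq_abs]
  rw [abs_of_nonneg (integral_nonneg fun z => abs_nonneg _)]
  simp only [abs_mul]
  rw [integral_const_mul]
  exact mul_le_mul_of_nonneg_left (hC x) (abs_nonneg _)

theorem integral_abs_inv_le (x : R3) {S : Set R3} (hS : volume S < ⊤) :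
    ∫ z in S, |1 / ‖x - z‖| ≤ 2 * Real.pi * 1 ^ 2 + volume.real S / 1 := by
  have e : ∀ z : R3, |1 / ‖x - z‖| = 1 / ‖x - z‖ := fun z => abs_of_nonneg (by positivity)
  simp only [e]
  exact setIntegral_inv_le x hS one_pos

theorem integrable_prod_inv {g : R3 → ℝ} (hg : Integrable g) {S : Set R3} (hS : volume S < ⊤) :
    Integrable (fun p : R3 × R3 => g p.1 * (1 / ‖p.1 - p.2‖)) (volume.prod (volume.restrict S)) :=
  integrable_prod_of_bound hg (F := fun p => 1 / ‖p.1 - p.2‖) (by fun_prop)
    (fun x => integrableOn_inv_sub x hS) fun x => integral_abs_inv_le x hS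

theorem pot_eq (q : R3 → ℝ) (y : R3) : pot q y = ∫ x, q x * (1 / ‖x - y‖) := by
  unfold pot
  congr 1; ext x; ring

theorem integrableOn_pot {q : R3 → ℝ} (hq : Integrable q) {S : Set R3} (hS : volume S < ⊤) :
    IntegrableOn (pot q) S := by
  have h := (integrable_prod_inv hq hS).integral_prod_right
  have e : pot q = fun y => ∫ x, q x * (1 / ‖x - y‖) := funext (pot_eq q)
  rw [e]
  exact h

theorem integral_pot {q : R3 → ℝ} (hq : Integrable q) {S : Set R3} (hS : volume S < ⊤) :
    ∫ y in S, pot q y = ∫ x, q x * ∫ z in S, 1 / ‖x - z‖ := by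
  simp only [pot_eq, ← integral_const_mul]
  exact (integral_integral_swap (f := fun x y => q x * (1 / ‖x - y‖))
    (μ := volume) (ν := volume.restrict S) (integrable_prod_inv hq hS)).symm

/-! ### one cell -/

theorem Fk_abs_le {h : ℝ} (hh : 0 < h) (v : R3) {z : R3} (hz : z ∈ cube (h / 2)) :
    |Fk h v z| ≤ h / 2 + h ^ 2 / 24 * (1 / ‖v - z‖) := by
  unfold Fk
  have h1 : ‖z‖ ≤ h := by have := norm_le_of_mem_cube hz; linarith
  have h2 : |‖v‖ - ‖v - z‖| ≤ ‖z‖ := by
    have := abs_norm_sub_norm_le v (v - z)
    simpa using this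
  have h3 : 0 ≤ h ^ 2 / 24 * (1 / ‖v - z‖) := by positivity
  refine (abs_add_le _ _).trans ?_
  rw [abs_mul, abs_of_pos (show (0 : ℝ) < 1 / 2 by norm_num), abs_of_nonneg h3]
  linarith

theorem measurable_Fk (h : ℝ) (y : R3) : Measurable fun p : R3 × R3 => Fk h (p.1 - y) p.2 := by
  unfold Fk
  exact ((((measurable_fst.sub_const y).norm.sub
    ((measurable_fst.sub_const y).sub measurable_snd).norm).const_mul _)).add
    ((measurable_const.div ((measurable_fst.sub_const y).sub measurable_snd).norm).const_mul _)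

theorem Fk_int_abs_le {h : ℝ} (hh : 0 < h) (v : R3) :
    ∫ z in cube (h / 2), |Fk h v z| ≤ h / 2 * volume.real (cube (h / 2))
      + h ^ 2 / 24 * (2 * Real.pi * 1 ^ 2 + volume.real (cube (h / 2)) / 1) := by
  have hS := volume_cube_lt_top (h / 2)
  have hi := integrableOn_inv_sub v hS
  have hc : IntegrableOn (fun _ : R3 => h / 2) (cube (h / 2)) :=
    integrableOn_const (hs := hS.ne)
  calc ∫ z in cube (h / 2), |Fk h v z|
      ≤ ∫ z in cube (h / 2), (h / 2 + h ^ 2 / 24 * (1 / ‖v - z‖)) := by
        refine setIntegral_mono_on (Fk_integrableOn h _ _).abs (hc.add (hi.const_mul _))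
          (measurableSet_cube _) fun z hz => Fk_abs_le hh v hz
    _ = h / 2 * volume.real (cube (h / 2))
        + h ^ 2 / 24 * ∫ z in cube (h / 2), 1 / ‖v - z‖ := by
        rw [integral_add hc (hi.const_mul _), integral_const_mul, setIntegral_const, smul_eq_mul]
        ring
    _ ≤ _ := by
        have h1 := setIntegral_inv_le v hS one_pos
        have h0 : 0 ≤ h ^ 2 / 24 := by positivity
        have h2 := mul_le_mul_of_nonneg_left h1 h0
        linarith

theorem Fk_prod_integrable {L : R3 → ℝ} (hL : Integrable L) {h : ℝ} (hh : 0 < h) (y : R3) :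
    Integrable (fun p : R3 × R3 => L p.1 * Fk h (p.1 - y) p.2)
      (volume.prod (volume.restrict (cube (h / 2)))) :=
  integrable_prod_of_bound (g := L) hL (S := cube (h / 2)) (F := fun p => Fk h (p.1 - y) p.2)
    (measurable_Fk h y) (C := h / 2 * volume.real (cube (h / 2))
      + h ^ 2 / 24 * (2 * Real.pi * 1 ^ 2 + volume.real (cube (h / 2)) / 1))
    (fun x => show IntegrableOn (fun z => Fk h (x - y) z) (cube (h / 2)) from
      Fk_integrableOn h (x - y) (h / 2))
    (fun x => show ∫ z in cube (h / 2), |Fk h (x - y) z| ≤ _ from Fk_int_abs_le hh (x - y))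

theorem cell_point {q L : R3 → ℝ} (hq : IsLap q L) (h : ℝ) (y z : R3)
    (hz : Integrable fun x => L x * (1 / ‖x - y - z‖)) :
    ∫ x, L x * Fk h (x - y) z
      = pot q y - pot q (y + z) - Real.pi * h ^ 2 / 6 * q (y + z) := by
  have g1 := hq.green1 y
  have g2 := hq.green1 (y + z)
  have g3 := hq.green2 (y + z)
  have e : ∀ x : R3, x - (y + z) = x - y - z := fun x => by abel
  simp only [e] at g2 g3
  have i1 := hq.Ln_int y
  have i2 : Integrable fun x => ‖x - y - z‖ * L x := by
    have := hq.Ln_int (y + z)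
    simpa only [e] using this
  have e1 : ∀ x : R3, L x * Fk h (x - y) z
      = 1 / 2 * (‖x - y‖ * L x - ‖x - y - z‖ * L x) + h ^ 2 / 24 * (L x * (1 / ‖x - y - z‖)) := by
    intro x
    unfold Fk
    ring
  simp only [e1]
  have i12 : Integrable fun x => ‖x - y‖ * L x - ‖x - y - z‖ * L x := i1.sub i2
  rw [integral_add (i12.const_mul _) (hz.const_mul _), integral_const_mul,
    integral_const_mul, integral_sub i1 i2]
  have e2 : ∫ x, L x * (1 / ‖x - y - z‖) = -(4 * Real.pi) * q (y + z) := by
    rw [g3]
    congr 1; ext x; ring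
  rw [e2]
  have e3 : pot q y = 1 / 2 * ∫ x, ‖x - y‖ * L x := g1
  have e4 : pot q (y + z) = 1 / 2 * ∫ x, ‖x - y - z‖ * L x := by
    unfold pot
    simp only [e]
    exact g2
  rw [e3, e4]
  ring

theorem cell_identity {q L : R3 → ℝ} (hq : IsLap q L) {h : ℝ} (hh : 0 < h) (y : R3) :
    h ^ 3 * pot q y - (∫ z in cube (h / 2), pot q (y + z))
      - Real.pi * h ^ 2 / 6 * ∫ z in cube (h / 2), q (y + z)
      = ∫ x, L x * X h (x - y) := by
  have hS := volume_cube_lt_top (h / 2)
  have hP := Fk_prod_integrable hq.L_int hh y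
  have hswap := integral_integral_swap (f := fun x z => L x * Fk h (x - y) z)
    (μ := volume) (ν := volume.restrict (cube (h / 2))) hP
  have e1 : ∀ x, ∫ z in cube (h / 2), L x * Fk h (x - y) z = L x * X h (x - y) := by
    intro x
    rw [integral_const_mul]; rfl
  simp only [e1] at hswap
  rw [hswap]
  -- almost every z is fine
  have hPi : Integrable (fun p : R3 × R3 => L p.1 * (1 / ‖p.1 - y - p.2‖))
      (volume.prod (volume.restrict (cube (h / 2)))) :=
    integrable_prod_of_bound hq.L_int (F := fun p => 1 / ‖p.1 - y - p.2‖) (by fun_prop)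
      (fun x => integrableOn_inv_sub (x - y) hS) fun x => integral_abs_inv_le (x - y) hS
  have hae : ∀ᵐ z ∂(volume.restrict (cube (h / 2))),
      ∫ x, L x * Fk h (x - y) z
        = pot q y - pot q (y + z) - Real.pi * h ^ 2 / 6 * q (y + z) := by
    filter_upwards [hPi.prod_left_ae] with z hz
    exact cell_point hq h y z hz
  rw [integral_congr_ae hae]
  have hemb : MeasurableEmbedding fun z : R3 => y + z := measurableEmbedding_addLeft y
  have hmp : MeasurePreserving (fun z : R3 => y + z) volume volume :=
    measurePreserving_add_left _ _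
  have i1 : IntegrableOn (fun _ : R3 => pot q y) (cube (h / 2)) :=
    integrableOn_const (hs := hS.ne)
  have i2 : IntegrableOn (fun z => pot q (y + z)) (cube (h / 2)) := by
    have hb : volume ((fun z : R3 => z - y) ⁻¹' cube (h / 2)) < ⊤ := by
      have := (measurePreserving_sub_right (volume : Measure R3) y).measure_preimage
        (measurableSet_cube (h / 2)).nullMeasurableSet
      rw [this]; exact hS
    have h1 := integrableOn_pot hq.q_int hb
    have h2 := (hmp.integrableOn_comp_preimage hemb (f := pot q)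
      (s := (fun z : R3 => z - y) ⁻¹' cube (h / 2))).2 h1
    have h3 : (fun z : R3 => y + z) ⁻¹' ((fun z : R3 => z - y) ⁻¹' cube (h / 2))
        = cube (h / 2) := by
      ext z; simp
    rw [h3] at h2
    exact h2
  have i3 : IntegrableOn (fun z => q (y + z)) (cube (h / 2)) := by
    have : Integrable fun z => q (y + z) := hq.q_int.comp_add_left y
    exact this.integrableOn
  have i12 : IntegrableOn (fun z => pot q y - pot q (y + z)) (cube (h / 2)) := i1.sub i2
  rw [integral_sub i12 (i3.const_mul _), integral_sub i1 i2, integral_const_mul,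
    setIntegral_const, volume_cube_real (by positivity), smul_eq_mul]
  ring

end

end Vale.Agent.P370.H198
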