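import Vale.Agent.P370.H198.Undisp

/-!
Block P3: `CubeStmt → UndispStmt`.
-/

namespace Vale.Agent.P370.H198

open MeasureTheory Set
open Vale.Agent.P363.Stmt (R3)

noncomputable section

theorem Bnd.nonneg {q L : R3 → ℝ} {N : ℝ} (h : Bnd q L N) : 0 ≤ N :=
  (abs_nonneg _).trans (h.sup 0)

theorem LX_integrable {L : R3 → ℝ} (hL : Integrable L) {h : ℝ} (hh : 0 < h) (y : R3) :
    Integrable fun x => L x * X h (x - y) := by
  have h1 := (Fk_prod_integrable hL hh y).integral_prod_left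
  have e1 : ∀ x, ∫ z in cube (h / 2), L x * Fk h (x - y) z = L x * X h (x - y) := by
    intro x
    rw [integral_const_mul]; rfl
  simpa only [e1] using h1

/-- the lattice identity -/
theorem lattice_identity {q L : R3 → ℝ} (hq : IsLap q L) {h : ℝ} (hh : 0 < h) (K : ℕ) :
    h ^ 3 * ∑ k ∈ box K, pot q (pt h k) - (∫ z in cube ((K + 1 / 2) * h), pot q z)
      - Real.pi * h ^ 2 / 6 * ∫ z in cube ((K + 1 / 2) * h), q z
      = ∑ k ∈ box K, ∫ x, L x * X h (x - pt h k) := by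
  rw [integral_tile hh K (integrableOn_pot hq.q_int (volume_cube_lt_top _)),
    integral_tile hh K hq.q_int.integrableOn, Finset.mul_sum, Finset.mul_sum,
    ← Finset.sum_sub_distrib, ← Finset.sum_sub_distrib]
  exact Finset.sum_congr rfl fun k _ => cell_identity hq hh (pt h k)

theorem err3 {q L : R3 → ℝ} {N : ℝ} (hq : IsLap q L) (hb : Bnd q L N) {t : ℕ} (ht : 1 ≤ t) :
    |∑ k ∈ box (t ^ 4), ∫ x, L x * X (1 / t) (x - pt (1 / t) k)|
      ≤ 27 * 108 ^ 3 * Real.sqrt t / t ^ 4 * N := by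
  have ht0 : (0 : ℝ) < t := by exact_mod_cast ht
  have hh : (0 : ℝ) < 1 / t := by positivity
  have hi : ∀ k, Integrable fun x => L x * X (1 / t) (x - pt (1 / t) k) :=
    fun k => LX_integrable hq.L_int hh _
  calc |∑ k ∈ box (t ^ 4), ∫ x, L x * X (1 / t) (x - pt (1 / t) k)|
      = |∫ x, ∑ k ∈ box (t ^ 4), L x * X (1 / t) (x - pt (1 / t) k)| := by
        rw [integral_finsetSum _ fun k _ => hi k]
    _ ≤ ∫ x, |∑ k ∈ box (t ^ 4), L x * X (1 / t) (x - pt (1 / t) k)| :=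
        abs_integral_le_integral_abs
    _ ≤ ∫ x, 27 * 108 ^ 3 * Real.sqrt t / t ^ 4 * |L x| := by
        refine integral_mono (integrable_finsetSum _ fun k _ => hi k).abs
          (hq.L_int.abs.const_mul _) fun x => ?_
        simp only [← Finset.mul_sum, abs_mul]
        rw [mul_comm]
        apply mul_le_mul_of_nonneg_right _ (abs_nonneg _)
        exact (Finset.abs_sum_le_sum_abs _ _).trans (sum_X_le ht x)
    _ = 27 * 108 ^ 3 * Real.sqrt t / t ^ 4 * ∫ x, |L x| := integral_const_mul _ _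
    _ ≤ _ := mul_le_mul_of_nonneg_left hb.lap (by positivity)

theorem Bnd.mom4 {q L : R3 → ℝ} {N : ℝ} (hq : IsLap q L) (hb : Bnd q L N) :
    ∫ x, ‖x‖ ^ 4 * |q x| ≤ N := by
  refine le_trans (integral_mono ?_ ?_ fun x => ?_) hb.mom
  · have := hq.q4_int.abs
    simpa [abs_mul] using this
  · have := hq.int_q.abs
    refine this.congr (Filter.Eventually.of_forall fun x => ?_)
    simp only [abs_mul]
    rw [abs_of_nonneg (by positivity : (0 : ℝ) ≤ 1 + ‖x‖ ^ 4)]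
  · simp only
    have : 0 ≤ |q x| := abs_nonneg _
    nlinarith

theorem q4_abs_int {q L : R3 → ℝ} (hq : IsLap q L) : Integrable fun x => ‖x‖ ^ 4 * |q x| := by
  have := hq.q4_int.abs
  simpa [abs_mul] using this

theorem norm_gt_of_notMem_cube {A : ℝ} {x : R3} (hx : x ∉ cube A) : A < ‖x‖ := by
  by_contra h
  exact hx fun i => (P363.R.H10.abs_coord_le x i).trans (not_lt.1 h)

theorem err2 {q L : R3 → ℝ} {N : ℝ} (hq : IsLap q L) (hb : Bnd q L N) {A : ℝ} (hA : 0 < A) :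
    |(∫ x in cube A, q x) - ∫ x, q x| ≤ N / A ^ 4 := by
  have h1 := integral_add_compl (measurableSet_cube A) hq.q_int
  have e : (∫ x in cube A, q x) - ∫ x, q x = -∫ x in (cube A)ᶜ, q x := by rw [← h1]; ring
  rw [e, abs_neg]
  calc |∫ x in (cube A)ᶜ, q x| ≤ ∫ x in (cube A)ᶜ, |q x| := abs_integral_le_integral_abs
    _ ≤ ∫ x in (cube A)ᶜ, 1 / A ^ 4 * (‖x‖ ^ 4 * |q x|) := by
        refine setIntegral_mono_on hq.q_int.abs.integrableOn
          ((q4_abs_int hq).const_mul _).integrableOn (measurableSet_cube A).compl fun x hx => ?_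
        have h2 := norm_gt_of_notMem_cube hx
        have h3 : A ^ 4 ≤ ‖x‖ ^ 4 := pow_le_pow_left₀ hA.le h2.le 4
        rw [← mul_assoc]
        have h4 : 1 ≤ 1 / A ^ 4 * ‖x‖ ^ 4 := by
          rw [one_div, inv_mul_eq_div, one_le_div (by positivity)]
          exact h3
        nlinarith [abs_nonneg (q x)]
    _ ≤ ∫ x, 1 / A ^ 4 * (‖x‖ ^ 4 * |q x|) :=
        setIntegral_le_integral ((q4_abs_int hq).const_mul _)
          (Filter.Eventually.of_forall fun x => by positivity)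
    _ = 1 / A ^ 4 * ∫ x, ‖x‖ ^ 4 * |q x| := integral_const_mul _ _
    _ ≤ 1 / A ^ 4 * N := mul_le_mul_of_nonneg_left (hb.mom4 hq) (by positivity)
    _ = _ := by ring

theorem err1 {C : ℝ} (hC : 0 < C) {A : ℝ} (hA : 0 < A)
    (hcube : ∀ x : R3, |VA A x - VA A 0 + 2 * Real.pi / 3 * ‖x‖ ^ 2| ≤ C * ‖x‖ ^ 4 / A ^ 2)
    {q L : R3 → ℝ} {N : ℝ} (hq : IsLap q L) (hb : Bnd q L N) :
    |(∫ z in cube A, pot q z) - VA A 0 * (∫ x, q x) + 2 * Real.pi / 3 * ∫ x, ‖x‖ ^ 2 * q x|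
      ≤ C * N / A ^ 2 := by
  have hS := volume_cube_lt_top A
  rw [integral_pot hq.q_int hS]
  have i1 : Integrable fun x => q x * ∫ z in cube A, 1 / ‖x - z‖ := by
    have h1 := (integrable_prod_inv hq.q_int hS).integral_prod_left
    simpa only [integral_const_mul] using h1
  have i2 : Integrable fun x => VA A 0 * q x := hq.q_int.const_mul _
  have i3 : Integrable fun x => 2 * Real.pi / 3 * (‖x‖ ^ 2 * q x) := hq.q2_int.const_mul _
  have i12 : Integrable fun x => (q x * ∫ z in cube A, 1 / ‖x - z‖) - VA A 0 * q x := i1.sub i2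
  have e : (∫ x, q x * ∫ z in cube A, 1 / ‖x - z‖) - VA A 0 * (∫ x, q x)
      + 2 * Real.pi / 3 * ∫ x, ‖x‖ ^ 2 * q x
      = ∫ x, q x * (VA A x - VA A 0 + 2 * Real.pi / 3 * ‖x‖ ^ 2) := by
    rw [← integral_const_mul, ← integral_const_mul, ← integral_sub i1 i2, ← integral_add i12 i3]
    congr 1; ext x
    simp only [VA]
    ring
  rw [e]
  calc |∫ x, q x * (VA A x - VA A 0 + 2 * Real.pi / 3 * ‖x‖ ^ 2)|
      ≤ ∫ x, |q x * (VA A x - VA A 0 + 2 * Real.pi / 3 * ‖x‖ ^ 2)| :=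
        abs_integral_le_integral_abs
    _ ≤ ∫ x, C / A ^ 2 * (‖x‖ ^ 4 * |q x|) := by
        refine integral_mono_of_nonneg (Filter.Eventually.of_forall fun x => abs_nonneg _)
          ((q4_abs_int hq).const_mul _) (Filter.Eventually.of_forall fun x => ?_)
        simp only [abs_mul]
        calc |q x| * |VA A x - VA A 0 + 2 * Real.pi / 3 * ‖x‖ ^ 2|
            ≤ |q x| * (C * ‖x‖ ^ 4 / A ^ 2) := mul_le_mul_of_nonneg_left (hcube x) (abs_nonneg _)
          _ = _ := by ring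
    _ = C / A ^ 2 * ∫ x, ‖x‖ ^ 4 * |q x| := integral_const_mul _ _
    _ ≤ C / A ^ 2 * N := mul_le_mul_of_nonneg_left (hb.mom4 hq) (by positivity)
    _ = _ := by ring

theorem undisp_of_cube (hcube : CubeStmt) : UndispStmt := by
  obtain ⟨C, hC, hcube⟩ := hcube
  refine ⟨C + 1 + 27 * 108 ^ 3, by positivity, fun t ht q L N hq hb => ?_⟩
  have ht1 : (1 : ℝ) ≤ t := by exact_mod_cast ht
  have ht0 : (0 : ℝ) < t := by linarith
  have hh : (0 : ℝ) < 1 / t := by positivity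
  have hN := hb.nonneg
  obtain ⟨A, hA⟩ : ∃ A : ℝ, A = ((t : ℝ) ^ 4 + 1 / 2) / t := ⟨_, rfl⟩
  have hA' : (((t ^ 4 : ℕ) : ℝ) + 1 / 2) * (1 / (t : ℝ)) = A := by
    rw [hA]; push_cast; ring
  have hA3 : (t : ℝ) ^ 3 ≤ A := by
    rw [hA, le_div_iff₀ ht0]
    have : (t : ℝ) ^ 3 * t = (t : ℝ) ^ 4 := by ring
    linarith
  have hA0 : 0 < A := lt_of_lt_of_le (by positivity) hA3
  have key := lattice_identity hq hh (t ^ 4)
  rw [hA'] at key
  have b1 := err1 hC hA0 (hcube A hA0) hq hb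
  have b2 := err2 hq hb hA0
  have b3 := err3 hq hb ht
  rw [← key] at b3
  rw [← hA]
  obtain ⟨S, hS⟩ : ∃ S, S = ∑ k ∈ box (t ^ 4), pot q (pt (1 / t) k) := ⟨_, rfl⟩
  rw [← hS] at b3 ⊢
  obtain ⟨I, hI⟩ : ∃ I, I = ∫ x, q x := ⟨_, rfl⟩
  rw [← hI] at b1 b2 ⊢
  obtain ⟨I2, hI2⟩ : ∃ I, I = ∫ x, ‖x‖ ^ 2 * q x := ⟨_, rfl⟩
  rw [← hI2] at b1 ⊢
  obtain ⟨P, hP⟩ : ∃ I, I = ∫ z in cube A, pot q z := ⟨_, rfl⟩
  rw [← hP] at b1 b3
  obtain ⟨Q, hQ⟩ : ∃ I, I = ∫ z in cube A, q z := ⟨_, rfl⟩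
  rw [← hQ] at b2 b3
  have e : S - ((t : ℝ) ^ 3 * VA A 0 + Real.pi * t / 6) * I + 2 * Real.pi / 3 * (t : ℝ) ^ 3 * I2
      = (t : ℝ) ^ 3 * ((1 / (t : ℝ)) ^ 3 * S - P - Real.pi * (1 / (t : ℝ)) ^ 2 / 6 * Q)
        + (t : ℝ) ^ 3 * (P - VA A 0 * I + 2 * Real.pi / 3 * I2)
        + Real.pi * t / 6 * (Q - I) := by
    field_simp
    ring
  rw [e]
  have hs : 0 < Real.sqrt t := Real.sqrt_pos.2 ht0
  have hs2 : Real.sqrt t * Real.sqrt t = t := Real.mul_self_sqrt ht0.le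
  have hs1 : 1 ≤ Real.sqrt t := Real.one_le_sqrt.2 ht1
  have hst : Real.sqrt t ≤ t := by nlinarith
  have c3 : |(t : ℝ) ^ 3 * ((1 / (t : ℝ)) ^ 3 * S - P - Real.pi * (1 / (t : ℝ)) ^ 2 / 6 * Q)|
      ≤ 27 * 108 ^ 3 * N / Real.sqrt t := by
    rw [abs_mul, abs_of_nonneg (by positivity : (0 : ℝ) ≤ (t : ℝ) ^ 3)]
    calc _ ≤ (t : ℝ) ^ 3 * (27 * 108 ^ 3 * Real.sqrt t / t ^ 4 * N) :=
          mul_le_mul_of_nonneg_left b3 (by positivity)
      _ = 27 * 108 ^ 3 * N * (Real.sqrt t / t) := by field_simp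
      _ = 27 * 108 ^ 3 * N / Real.sqrt t := by
          have : Real.sqrt t / t = 1 / Real.sqrt t := by
            rw [div_eq_div_iff ht0.ne' hs.ne', hs2, one_mul]
          rw [this]; ring
  have hN1 : N / t ≤ N / Real.sqrt t := div_le_div_of_nonneg_left hN hs hst
  have c1 : |(t : ℝ) ^ 3 * (P - VA A 0 * I + 2 * Real.pi / 3 * I2)| ≤ C * N / Real.sqrt t := by
    rw [abs_mul, abs_of_nonneg (by positivity : (0 : ℝ) ≤ (t : ℝ) ^ 3)]
    calc _ ≤ (t : ℝ) ^ 3 * (C * N / A ^ 2) := mul_le_mul_of_nonneg_left b1 (by positivity)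
      _ ≤ (t : ℝ) ^ 3 * (C * N / ((t : ℝ) ^ 3) ^ 2) := by
          apply mul_le_mul_of_nonneg_left _ (by positivity)
          exact div_le_div_of_nonneg_left (by positivity) (by positivity)
            (pow_le_pow_left₀ (by positivity) hA3 2)
      _ = C * (N / (t : ℝ) ^ 3) := by field_simp
      _ ≤ C * (N / Real.sqrt t) := by
          apply mul_le_mul_of_nonneg_left _ hC.le
          apply div_le_div_of_nonneg_left hN hs
          calc Real.sqrt t ≤ t := hst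
            _ = (t : ℝ) ^ 1 := (pow_one _).symm
            _ ≤ (t : ℝ) ^ 3 := pow_le_pow_right₀ ht1 (by norm_num)
      _ = _ := by ring
  have c2 : |Real.pi * t / 6 * (Q - I)| ≤ 1 * N / Real.sqrt t := by
    rw [abs_mul, abs_of_nonneg (by positivity : (0 : ℝ) ≤ Real.pi * t / 6)]
    calc _ ≤ Real.pi * t / 6 * (N / A ^ 4) := mul_le_mul_of_nonneg_left b2 (by positivity)
      _ ≤ 1 * t * (N / A ^ 4) := by
          apply mul_le_mul_of_nonneg_right _ (by positivity)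
          have := Real.pi_le_four
          nlinarith
      _ ≤ 1 * t * (N / ((t : ℝ) ^ 3) ^ 4) := by
          apply mul_le_mul_of_nonneg_left _ (by positivity)
          exact div_le_div_of_nonneg_left hN (by positivity)
            (pow_le_pow_left₀ (by positivity) hA3 4)
      _ = N / (t : ℝ) ^ 11 := by field_simp
      _ ≤ N / Real.sqrt t := by
          apply div_le_div_of_nonneg_left hN hs
          calc Real.sqrt t ≤ t := hst
            _ = (t : ℝ) ^ 1 := (pow_one _).symm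
            _ ≤ (t : ℝ) ^ 11 := pow_le_pow_right₀ ht1 (by norm_num)
      _ = _ := by ring
  calc _ ≤ 27 * 108 ^ 3 * N / Real.sqrt t + C * N / Real.sqrt t + 1 * N / Real.sqrt t := by
        refine (abs_add_le _ _).trans (add_le_add ((abs_add_le _ _).trans (add_le_add c3 c1)) c2)
    _ = _ := by ring

end

end Vale.Agent.P370.H198
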